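import Vale.Agent.P098.Exact.Frame

/-! The boundary inequality of a family member reduced to two polynomials in the curvature and
the cubic trace. -/

noncomputable section

namespace Vale.Agent.P098.Exact

open Matrix

variable {d : ℕ}

/-- A form on the normalised boundary direction, without its value component. -/
def bForm : Form → ℝ → ℝ → ℝ → ℝ
  | .a1, h, t, _ => -t - 2 * h
  | .a2, h, t, t4 => -t4 - h * t + h ^ 2
  | .s0, _, _, _ => 1
  | .s1, h, _, _ => -h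
  | .s2, h, _, _ => h ^ 2
  | .s11, h, _, _ => h ^ 2
  | .u0, h, _, _ => -h
  | .u1, h, _, _ => h ^ 2
  | .u2, h, _, _ => -h ^ 3
  | .dw, _, _, _ => 0

/-- A form on the value component. -/
def wForm : Form → ℝ
  | .dw => 1
  | _ => 0

/-- The monomial of a term on the normalised boundary. -/
def Term.bMon (t : Term) (h t3 : ℝ) : ℝ :=
  t3 ^ t.e3 * (-h) ^ t.e1 * (0 : ℝ) ^ t.ew

/-- The Hessian-gradient part of the boundary flux. -/
def bVal (L : List Term) (h t3 t4 : ℝ) : ℝ :=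
  (L.map fun t => (t.c : ℝ) * t.bMon h t3 * bForm t.form h t3 t4).sum

/-- The value part of the boundary flux. -/
def wVal (L : List Term) (h t3 : ℝ) : ℝ :=
  (L.map fun t => (t.c : ℝ) * t.bMon h t3 * wForm t.form).sum

theorem trace_mul_vecMulVec (X : Matrix (Fin d) (Fin d) ℝ) (a b : Fin d → ℝ) :
    (X * vecMulVec a b).trace = b ⬝ᵥ (X *ᵥ a) := by
  rw [trace_eq, dot_eq]
  refine Finset.sum_congr rfl fun i _ => Finset.sum_congr rfl fun k _ => ?_
  simp [vecMulVec_apply]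
  ring

theorem symm_dot {X : Matrix (Fin d) (Fin d) ℝ} (hX : Xᵀ = X) (a b : Fin d → ℝ) :
    a ⬝ᵥ (X *ᵥ b) = (X *ᵥ a) ⬝ᵥ b := by
  rw [Matrix.dotProduct_mulVec, ← Matrix.mulVec_transpose, hX]

/-- Values of the forms on the normalised boundary direction. -/
theorem Form.val_boundary (f : Form) (A : Fin d → Fin d → ℝ) (v z : Fin d → ℝ) (h : ℝ)
    (hAs : ∀ i j, A i j = A j i) (hS : ∑ i, ∑ k, A i k ^ 2 = 1) (hv : v ⬝ᵥ v = 1)
    (hAv : Matrix.of A *ᵥ v = (-h) • v) (hzv : z ⬝ᵥ v = 0) :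
    f.val ((A, v, 0) : Jet d)
      (fun j k => -(∑ l, A j l * A l k) - h * A j k + v j * v k + v j * z k + z j * v k,
        fun k => -h * v k, 0) =
      bForm f h (t3 ((A, v, 0) : Jet d))
        (Matrix.of A * Matrix.of A * (Matrix.of A * Matrix.of A)).trace := by
  obtain ⟨X, hX⟩ : ∃ X, X = Matrix.of A := ⟨_, rfl⟩
  rw [← hX] at hAv ⊢
  have hXt : Xᵀ = X := by ext i k; simp [hX, hAs k i]
  have hm : mat ((A, v, 0) : Jet d) = X := hX.symm
  obtain ⟨q, hq⟩ : ∃ q : Jet d, q =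
      (fun j k => -(∑ l, A j l * A l k) - h * A j k + v j * v k + v j * z k + z j * v k,
        fun k => -h * v k, 0) := ⟨_, rfl⟩
  rw [← hq]
  have hmq : mat q = -(X * X) - h • X + vecMulVec v v + vecMulVec v z + vecMulVec z v := by
    ext i k
    simp [mat, hq, hX, Matrix.mul_apply, vecMulVec_apply]
  have hq2 : q.2.1 = (-h) • v := by funext k; simp [hq]
  have hS' : (X * X).trace = 1 := by
    rw [trace_eq, ← hS]
    exact Finset.sum_congr rfl fun i _ => Finset.sum_congr rfl fun k _ => by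
      rw [hX, Matrix.of_apply, Matrix.of_apply, hAs k i, sq]
  have ht : t3 ((A, v, 0) : Jet d) = (X * X * X).trace := by rw [t3_eq, hm]
  have hXz : v ⬝ᵥ (X *ᵥ z) = 0 := by
    rw [symm_dot hXt, hAv, smul_dotProduct, dotProduct_comm, hzv, smul_zero]
  have hXz' : z ⬝ᵥ (X *ᵥ v) = 0 := by rw [hAv, dotProduct_smul, hzv, smul_zero]
  have hX2 : (X * X) *ᵥ v = (h ^ 2) • v := by
    rw [← Matrix.mulVec_mulVec, hAv, Matrix.mulVec_smul, hAv, smul_smul]
    ring_nf
  have hvw : v ⬝ᵥ z = 0 := by rw [dotProduct_comm, hzv]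
  have hMv : v ⬝ᵥ (mat q *ᵥ v) = 1 := by
    rw [hmq]
    simp only [Matrix.add_mulVec, Matrix.sub_mulVec, Matrix.neg_mulVec, Matrix.smul_mulVec, hAv, hX2,
      Matrix.vecMulVec_mulVec, dotProduct_add, dotProduct_sub, dotProduct_neg, dotProduct_smul,
      smul_eq_mul, hv, hzv, hvw, op_smul_eq_smul]
    ring
  cases f
  · rw [Form.val_a1, hm, hmq, ht]
    simp only [Matrix.mul_add, Matrix.mul_sub, Matrix.mul_neg, Matrix.mul_smul, Matrix.trace_add,
      Matrix.trace_sub, Matrix.trace_neg, Matrix.trace_smul, trace_mul_vecMulVec, hXz, hAv,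
      dotProduct_smul, smul_eq_mul, hv, hS', bForm, ← Matrix.mul_assoc, hzv]
    ring
  · rw [Form.val_a2, hm, hmq, ht]
    have h1 : v ⬝ᵥ ((X * X) *ᵥ z) = 0 := by
      rw [symm_dot (by rw [Matrix.transpose_mul, hXt]), hX2, smul_dotProduct, hvw, smul_zero]
    simp only [Matrix.mul_add, Matrix.mul_sub, Matrix.mul_neg, Matrix.mul_smul, Matrix.trace_add,
      Matrix.trace_sub, Matrix.trace_neg, Matrix.trace_smul, trace_mul_vecMulVec, hX2, h1,
      dotProduct_smul, smul_eq_mul, hv, hzv, bForm, ← Matrix.mul_assoc]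
    ring
  · rw [Form.val_s0]
    exact hMv
  · rw [Form.val_s1, hm, ← Matrix.mulVec_mulVec, symm_dot hXt, hAv, smul_dotProduct, hMv]
    simp [bForm]
  · rw [Form.val_s2, hm, ← Matrix.mulVec_mulVec,
      symm_dot (by rw [Matrix.transpose_mul, hXt]), hX2, smul_dotProduct, hMv]
    simp [bForm]
  · rw [Form.val_s11, hm, ← Matrix.mulVec_mulVec, ← Matrix.mulVec_mulVec, hAv, symm_dot hXt, hAv,
      Matrix.mulVec_smul, smul_dotProduct, dotProduct_smul, hMv]
    simp [bForm]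
    ring
  · rw [Form.val_u0, hq2]
    simp [bForm, hv]
  · rw [Form.val_u1, hm, hq2, hAv]
    simp [bForm, hv]
    ring
  · rw [Form.val_u2, hm, hq2, hX2]
    simp [bForm, hv]
    ring
  · simp [Form.val, bForm, hq]

theorem Form.val_wdir (f : Form) (j : Jet d) : f.val j ((0, 0, 1) : Jet d) = wForm f := by
  cases f <;> simp [Form.val, wForm]

/-- The flux on the normalised boundary direction. -/
theorem omV_boundary (al : ℝ) (L : List Term) (A : Fin d → Fin d → ℝ) (v z : Fin d → ℝ) (h : ℝ)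
    (hAs : ∀ i j, A i j = A j i) (hS : ∑ i, ∑ k, A i k ^ 2 = 1) (hv : v ⬝ᵥ v = 1)
    (hAv : Matrix.of A *ᵥ v = (-h) • v) (hzv : z ⬝ᵥ v = 0) :
    omV al L ((A, v, 0) : Jet d)
      (fun j k => -(∑ l, A j l * A l k) - h * A j k + v j * v k + v j * z k + z j * v k,
        fun k => -h * v k, 0) =
      bVal L h (t3 ((A, v, 0) : Jet d))
        (Matrix.of A * Matrix.of A * (Matrix.of A * Matrix.of A)).trace ∧
    omV al L ((A, v, 0) : Jet d) ((0, 0, 1) : Jet d) = wVal L h (t3 ((A, v, 0) : Jet d)) := by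
  have hs : sqA ((A, v, 0) : Jet d) = 1 := hS
  have hp1 : p1 ((A, v, 0) : Jet d) = -h := by
    rw [p1_eq, show mat ((A, v, 0) : Jet d) = Matrix.of A from rfl, hAv, dotProduct_smul, hv]
    simp
  have hp0 : p0 ((A, v, 0) : Jet d) = 1 := by rw [p0_eq]; exact hv
  have hmon : ∀ t : Term, t.mon ((A, v, 0) : Jet d) = t.bMon h (t3 ((A, v, 0) : Jet d)) := fun t => by
    simp [Term.mon, Term.bMon, hp0, hp1]
  induction L with
  | nil => simp [omV, bVal, wVal]
  | cons t L ih =>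
    simp only [omV, bVal, wVal, List.map_cons, List.sum_cons] at ih ⊢
    rw [ih.1, ih.2]
    simp only [Term.val, hs, Real.one_rpow, mul_one, hmon,
      Form.val_boundary t.form A v z h hAs hS hv hAv hzv, Form.val_wdir]
    exact ⟨trivial, trivial⟩

/-- The range of curvature and traces on the boundary. -/
def BoundaryRange (n : ℕ) (h t3 t4 : ℝ) : Prop :=
  0 ≤ h ∧ ∃ (l : Fin (n + 1) → ℝ) (i0 : Fin (n + 1)), i0 ≠ Fin.last n ∧ l (Fin.last n) = 0 ∧
    l i0 = -h ∧ ∑ i, l i = 0 ∧ ∑ i, l i ^ 2 = 1 ∧ t3 = ∑ i, l i ^ 3 ∧ t4 = ∑ i, l i ^ 4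

theorem range_of_boundary {n : ℕ} (A : Fin (n + 1) → Fin (n + 1) → ℝ) (x v : Fin (n + 1) → ℝ)
    (h : ℝ) (hh : 0 ≤ h) (hx : x ⬝ᵥ x = 1) (hAs : ∀ i j, A i j = A j i) (hAt : ∑ i, A i i = 0)
    (hAx : Matrix.of A *ᵥ x = 0) (hS : ∑ i, ∑ k, A i k ^ 2 = 1) (hv : v ⬝ᵥ v = 1)
    (hxv : x ⬝ᵥ v = 0) (hAv : Matrix.of A *ᵥ v = (-h) • v) :
    BoundaryRange n h (t3 ((A, v, 0) : Jet (n + 1)))
      (Matrix.of A * Matrix.of A * (Matrix.of A * Matrix.of A)).trace := by
  classical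
  obtain ⟨U, l, hU, hU', hUx, hl, hdiag⟩ := exists_frame (Matrix.of A) hAs x hx hAx
  have hAeq : Matrix.of A = U * Matrix.diagonal l * Uᵀ := by
    rw [← hdiag, Matrix.mul_assoc, hU', Matrix.mul_one]
  have hv0 : Matrix.diagonal l *ᵥ (Uᵀ *ᵥ v) = (-h) • (Uᵀ *ᵥ v) := by
    rw [← Matrix.mulVec_smul, ← hAv, hAeq, Matrix.mulVec_mulVec, Matrix.mulVec_mulVec,
      ← Matrix.mul_assoc, ← Matrix.mul_assoc, hU, Matrix.one_mul]
  have hlast : (Uᵀ *ᵥ v) (Fin.last n) = 0 := by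
    rw [← hxv]
    show ∑ i, U i (Fin.last n) * v i = _
    exact Finset.sum_congr rfl fun i _ => by rw [hUx]
  obtain ⟨i0, hi0⟩ : ∃ i0, (Uᵀ *ᵥ v) i0 ≠ 0 := by
    by_contra hno
    push Not at hno
    have h0 : Uᵀ *ᵥ v = 0 := funext hno
    have := congrArg (fun y => U *ᵥ y) h0
    simp [Matrix.mulVec_mulVec, hU'] at this
    simp [this] at hv
  refine ⟨hh, l, i0, fun e => hi0 (e ▸ hlast), hl, ?_, ?_, ?_, ?_, ?_⟩
  · have := congrFun hv0 i0
    rw [Matrix.mulVec_diagonal, Pi.smul_apply, smul_eq_mul] at this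
    exact mul_right_cancel₀ hi0 this
  · rw [← Matrix.trace_diagonal, ← conj_trace hU, ← hAeq]
    exact hAt
  · have h2 : (Matrix.of A * Matrix.of A).trace = 1 := by
      rw [trace_eq, ← hS]
      exact Finset.sum_congr rfl fun i _ => Finset.sum_congr rfl fun k _ => by
        rw [Matrix.of_apply, Matrix.of_apply, hAs k i, sq]
    rw [hAeq, conj_mul hU, conj_trace hU, Matrix.diagonal_mul_diagonal, Matrix.trace_diagonal] at h2
    rw [← h2]
    exact Finset.sum_congr rfl fun i _ => sq (l i)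
  · rw [t3_eq, show mat ((A, v, 0) : Jet (n + 1)) = Matrix.of A from rfl, hAeq, conj_mul hU,
      conj_mul hU, conj_trace hU, Matrix.diagonal_mul_diagonal, Matrix.diagonal_mul_diagonal,
      Matrix.trace_diagonal]
    exact Finset.sum_congr rfl fun i _ => by ring
  · rw [hAeq, conj_mul hU, conj_mul hU, conj_trace hU, Matrix.diagonal_mul_diagonal,
      Matrix.diagonal_mul_diagonal, Matrix.trace_diagonal]
    exact Finset.sum_congr rfl fun i _ => by ring

/-- **Reduction of the boundary inequality.** -/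
theorem boundary_of_range {n : ℕ} (al : ℝ) (L : List Term)
    (hB : ∀ h t3 t4, BoundaryRange n h t3 t4 →
      0 ≤ bVal L h t3 t4 + h ∧ 0 ≤ wVal L h t3)
    (x : Fin (n + 1) → ℝ) (A : Fin (n + 1) → Fin (n + 1) → ℝ) (v z : Fin (n + 1) → ℝ) (H : ℝ)
    (hx : ∑ i, x i ^ 2 = 1) (hA : A ≠ 0) (hAs : ∀ i j, A i j = A j i) (hAt : ∑ i, A i i = 0)
    (hAx : ∀ j, ∑ i, x i * A i j = 0) (hv : ∑ i, v i ^ 2 = 1) (hxv : ∑ i, x i * v i = 0)
    (hAv : ∀ i, ∑ j, A i j * v j = -H * v i) (hzv : ∑ i, z i * v i = 0) (hH : 0 ≤ H) :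
    0 ≤ omCLM al L (A, v, 0)
        (fun j k => -(∑ l, A j l * A l k) - H * A j k + (∑ a, ∑ b, A a b ^ 2) * v j * v k
          + v j * z k + z j * v k, fun k => -H * v k, 1)
      + H * Kf al (A, v, 0) := by
  obtain ⟨σ, hσdef⟩ : ∃ σ, σ = Real.sqrt (sqA ((A, v, 0) : Jet (n + 1))) := ⟨_, rfl⟩
  have hσ : 0 < σ := hσdef ▸ Real.sqrt_pos.2 (sqA_pos (j := (A, v, 0)) hA)
  have hσ2 : σ ^ 2 = ∑ a, ∑ b, A a b ^ 2 := by
    rw [hσdef, Real.sq_sqrt (sqA_pos (j := (A, v, 0)) hA).le]; rfl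
  obtain ⟨B, hB'⟩ : ∃ B : Fin (n + 1) → Fin (n + 1) → ℝ, ∀ i k, B i k = A i k / σ :=
    ⟨_, fun i k => rfl⟩
  obtain ⟨h, hh⟩ : ∃ h, h = H / σ := ⟨_, rfl⟩
  obtain ⟨y, hy⟩ : ∃ y : Fin (n + 1) → ℝ, ∀ i, y i = z i / σ ^ 2 := ⟨_, fun i => rfl⟩
  have hv' : v ⬝ᵥ v = 1 := by simpa [dotProduct, sq] using hv
  have hBS : ∑ i, ∑ k, B i k ^ 2 = 1 := by
    simp only [hB', div_pow, ← Finset.sum_div]
    rw [hσ2]
    exact div_self (hσ2 ▸ pow_ne_zero 2 hσ.ne')
  have hBv : Matrix.of B *ᵥ v = (-h) • v := by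
    funext i
    show ∑ k, B i k * v k = -h * v i
    simp only [hB', div_mul_eq_mul_div, ← Finset.sum_div, hAv, hh]
    ring
  have hyv : y ⬝ᵥ v = 0 := by
    show ∑ i, y i * v i = 0
    simp only [hy, div_mul_eq_mul_div, ← Finset.sum_div, hzv, zero_div]
  have hBne : ((B, v, 0) : Jet (n + 1)).1 ≠ 0 := by
    intro e
    simp only at e
    simp [e] at hBS
  have hjet : ((A, v, 0) : Jet (n + 1)) = (σ • B, v, 0) := by
    refine Prod.ext ?_ rfl
    funext i k
    simp [hB', mul_div_cancel₀ _ hσ.ne']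
  have hrange := range_of_boundary B x v h (hh ▸ div_nonneg hH hσ.le)
    (by simpa [dotProduct, sq] using hx) (fun i k => by rw [hB', hB', hAs])
    (by simp only [hB', ← Finset.sum_div, hAt, zero_div])
    (by
      funext i
      show ∑ k, B i k * x k = 0
      simp only [hB', div_mul_eq_mul_div, ← Finset.sum_div]
      rw [Finset.sum_congr rfl fun k _ => show A i k * x k = x k * A k i by rw [hAs k i]; ring,
        hAx, zero_div])
    hBS hv' hxv hBv
  obtain ⟨hb1, hb2⟩ := hB _ _ _ hrange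
  obtain ⟨e1, e2⟩ := omV_boundary al L B v y h (fun i k => by rw [hB', hB', hAs]) hBS hv' hBv hyv
  obtain ⟨Q, hQ⟩ : ∃ Q : Jet (n + 1), Q =
      σ • ((fun j k => -(∑ l, B j l * B l k) - h * B j k + v j * v k + v j * y k + y j * v k,
        fun k => -h * v k, 0) : Jet (n + 1)) + (0, 0, 1) := ⟨_, rfl⟩
  have hq : ((fun j k => -(∑ l, A j l * A l k) - H * A j k + (∑ a, ∑ b, A a b ^ 2) * v j * v k
      + v j * z k + z j * v k, fun k => -H * v k, 1) : Jet (n + 1)) = (σ • Q.1, Q.2) := by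
    refine Prod.ext ?_ (Prod.ext ?_ ?_)
    · funext j k
      rw [← hσ2]
      simp only [hQ, hB', hh, hy, Prod.fst_add, Prod.smul_fst, Pi.smul_apply,
        smul_eq_mul, add_zero]
      rw [show ∑ l, A j l / σ * (A l k / σ) = (∑ l, A j l * A l k) / σ ^ 2 by
        rw [Finset.sum_div]; exact Finset.sum_congr rfl fun l _ => by field_simp]
      field_simp
    · funext k
      simp only [hQ, hh, Prod.snd_add, Prod.fst_add, Prod.smul_snd, Prod.smul_fst, Pi.add_apply,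
        Pi.smul_apply, smul_eq_mul, Pi.zero_apply, add_zero]
      field_simp
    · simp [hQ]
  rw [hq, hjet, hom_omCLM (j := ((B, v, 0) : Jet (n + 1))) (q := Q) al L σ hσ hBne,
    hom_Kf (j := ((B, v, 0) : Jet (n + 1))) al σ hσ hBne, omCLM_apply, hQ, omV_add, omV_smul, e1, e2,
    Kf, show sqA ((B, v, 0) : Jet (n + 1)) = 1 from hBS, Real.one_rpow]
  have hc : 0 ≤ σ ^ (2 * al) := Real.rpow_nonneg hσ.le _
  have hHh : H = σ * h := by rw [hh, mul_div_cancel₀ _ hσ.ne']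
  rw [hHh]
  have := mul_nonneg hc (add_nonneg (mul_nonneg hσ.le hb1) hb2)
  linarith

end Vale.Agent.P098.Exact
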