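import Vale.Agent.P098.Exact.Reduce
import Vale.Agent.P098.Exact.Boundary

/-! A coefficient table with a positive interior form and a nonnegative boundary form is a
certificate. -/

noncomputable section

namespace Vale.Agent.P098.Exact

/-- The certificate of a table. -/
def mkCert {n : ℕ} (al : ℝ) (L : List Term) (h1 : 1 / 2 < al) (h2 : al < 1) (δ : ℝ) (hδ : 0 < δ)
    (hQ : ∀ (l v : Fin (n + 1) → ℝ) (τ : Fin (n + 1) → Fin (n + 1) → Fin (n + 1) → ℝ) (a : ℝ),
      Admissible l v τ → 0 ≤ a → δ ≤ Qval al L l v τ a 1)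
    (hB : ∀ h t3 t4, BoundaryRange n h t3 t4 → 0 ≤ bVal L h t3 t4 + h ∧ 0 ≤ wVal L h t3) :
    Cert (n + 1) where
  al := al
  half_lt := h1
  lt_one := h2
  δ := δ
  δ_pos := hδ
  K := Kf al
  om := omCLM al L
  smooth_K := smooth_Kf al
  smooth_om := smooth_omCLM al L
  hom_K t ht j hj := hom_Kf (j := j) al t ht hj
  hom_om t ht j q hj := hom_omCLM (j := j) (q := q) al L t ht hj
  pos _ _ _ _ _ hA _ _ _ _ _ _ := Kf_pos al hA
  interior x A v w T hx hA hAs hAt hAx hv hw hw0 hT1 hT2 hT3 hT4 := by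
    have := interior_of_Qval al L hQ x A v w T hx hA hAs hAt hAx hv hw hw0 hT1 hT2 hT3 hT4
    linarith
  boundary x A v z H hx hA hAs hAt hAx hv hxv hAv hzv _ hH :=
    boundary_of_range al L hB x A v z H hx hA hAs hAt hAx hv hxv hAv hzv hH

end Vale.Agent.P098.Exact
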