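import Vale.Agent.P098.Exact.Reduce

/-! A chart for the sorted unit traceless spectra in dimension five; the interior form only has to
be checked there. -/

noncomputable section

namespace Vale.Agent.P098.Exact

open Matrix

section Perm

variable {n : ℕ}

/-- The matrix of a coordinate permutation. -/
def pMat (π : Equiv.Perm (Fin (n + 1))) : Matrix (Fin (n + 1)) (Fin (n + 1)) ℝ :=
  Matrix.of fun i k => if π i = k then 1 else 0

theorem pMat_orth (π : Equiv.Perm (Fin (n + 1))) : (pMat π)ᵀ * pMat π = 1 := by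
  ext a b
  simp only [Matrix.mul_apply, Matrix.transpose_apply, pMat, Matrix.of_apply, Matrix.one_apply]
  rw [Fintype.sum_eq_single (π.symm a)
    (fun i hi => by rw [if_neg (fun h => hi (by rw [← h, Equiv.symm_apply_apply])), zero_mul])]
  simp

theorem lam_pMat (π : Equiv.Perm (Fin (n + 1))) (q : Jet (n + 1)) :
    lam (pMat π) 1 q = (fun i k => q.1 (π i) (π k), fun i => q.2.1 (π i), q.2.2) := by
  refine Prod.ext ?_ (Prod.ext ?_ rfl)
  · funext i k
    simp [lam, pMat, mat, Matrix.mul_apply, Matrix.transpose_apply]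
  · funext i
    simp [lam, pMat, Matrix.mulVec, dotProduct]

theorem perm_eq_last {π : Equiv.Perm (Fin (n + 1))} (hπ : π (Fin.last n) = Fin.last n)
    (i : Fin (n + 1)) : π i = Fin.last n ↔ i = Fin.last n := by
  constructor
  · intro h
    exact π.injective (h.trans hπ.symm)
  · rintro rfl
    exact hπ

variable (al : ℝ) (L : List Term) (π : Equiv.Perm (Fin (n + 1))) (l v : Fin (n + 1) → ℝ)
  (τ : Fin (n + 1) → Fin (n + 1) → Fin (n + 1) → ℝ)

theorem Admissible.perm (hπ : π (Fin.last n) = Fin.last n) (h : Admissible l v τ) :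
    Admissible (fun i => l (π i)) (fun i => v (π i)) (fun i j k => τ (π i) (π j) (π k)) := by
  refine ⟨by simp [hπ, h.l_last], ?_, ?_, ?_, by simp [hπ, h.v_last], fun i k m => h.tau_right _ _ _,
    fun i k m => h.tau_left _ _ _, fun k => ?_, fun k m => by simp [hπ, h.tau_last]⟩
  · rw [← h.l_sum]; exact Equiv.sum_comp π l
  · rw [← h.l_sq]; exact Equiv.sum_comp π (fun i => l i ^ 2)
  · refine le_of_eq_of_le ?_ h.v_sq
    exact Equiv.sum_comp π (fun i => v i ^ 2)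
  · rw [← h.tau_trace (π k)]; exact Equiv.sum_comp π (fun i => τ (π k) i i)

/-- The interior form is invariant under permutations of the tangential axes. -/
theorem Qval_perm (a b : ℝ) (hπ : π (Fin.last n) = Fin.last n) (hl : ∑ i, l i ^ 2 = 1) :
    Qval al L (fun i => l (π i)) (fun i => v (π i)) (fun i j k => τ (π i) (π j) (π k)) a b =
      Qval al L l v τ a b := by
  have hU := pMat_orth π
  have hj : jet0 (fun i => l (π i)) (fun i => v (π i)) = lam (pMat π) 1 (jet0 l v) := by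
    rw [lam_pMat]
    simp [jet0, hπ, π.injective.eq_iff]
  have hne : (jet0 l v).1 ≠ 0 := by
    intro e
    have : ∀ i, l i = 0 := fun i => by simpa [jet0] using congrFun (congrFun e i) i
    simp [this] at hl
  have hlj : ljet0 (fun i => l (π i)) (fun i => v (π i)) = lam (pMat π) 1 (ljet0 l v) := by
    rw [lam_pMat]
    simp [ljet0, hπ, π.injective.eq_iff]
    rfl
  have hq : ∀ k, qdir (fun i => l (π i)) (fun i => v (π i))
      (fun i j m => τ (π i) (π j) (π m)) a b k = lam (pMat π) 1 (qdir l v τ a b (π k)) := by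
    intro k
    rw [lam_pMat]
    simp [qdir, bord, perm_eq_last hπ, π.injective.eq_iff]
  have hd : ∀ h : Jet (n + 1),
      dsqA (lam (pMat π) 1 (jet0 l v)) (lam (pMat π) 1 h) = dsqA (jet0 l v) h := by
    intro h
    simp only [dsqA, lam_pMat]
    exact (Finset.sum_congr rfl fun i _ => Equiv.sum_comp π
      (fun k => 2 * (jet0 l v).1 (π i) k * h.1 (π i) k)).trans
      (Equiv.sum_comp π (fun i => ∑ k, 2 * (jet0 l v).1 i k * h.1 i k))
  rw [Qval, Qval, hj, hlj, omV_orth hU]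
  simp only [hq, hd, dOmV_lam hU al L one_pos hne, Real.one_rpow, one_mul]
  rw [Equiv.sum_comp π (fun k => dOmV al L (jet0 l v) (qdir l v τ a b k) (qdir l v τ a b k)
    - (al * dsqA (jet0 l v) (qdir l v τ a b k)) ^ 2 / 4)]

end Perm

/-- Chart of the sorted unit traceless spectra. -/
def chart (p q : ℝ) : Fin 5 → ℝ :=
  let n := 1 + p ^ 2 + q ^ 2
  let c1 := (1 - p ^ 2 - q ^ 2) / n
  let c2 := 2 * p / n
  let c3 := 2 * q / n
  ![(c1 + c2 + c3) / 2, (c1 - c2 - c3) / 2, (-c1 + c2 - c3) / 2, (-c1 - c2 + c3) / 2, 0]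

/-- Every sorted spectrum lies in the chart. -/
theorem exists_chart (l : Fin 5 → ℝ) (h4 : l 4 = 0) (hs : ∑ i, l i = 0) (hq : ∑ i, l i ^ 2 = 1)
    (h01 : l 1 ≤ l 0) (h12 : l 2 ≤ l 1) (h23 : l 3 ≤ l 2) :
    ∃ p q, 0 ≤ p ∧ |q| ≤ p ∧ p ^ 2 + q ^ 2 + 2 * p ≤ 1 ∧ chart p q = l := by
  rw [Fin.sum_univ_five] at hs hq
  obtain ⟨c1, hc1⟩ : ∃ c, c = l 0 + l 1 := ⟨_, rfl⟩
  obtain ⟨c2, hc2⟩ : ∃ c, c = l 0 + l 2 := ⟨_, rfl⟩
  obtain ⟨c3, hc3⟩ : ∃ c, c = l 0 + l 3 := ⟨_, rfl⟩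
  have he : l 3 = -l 0 - l 1 - l 2 := by linarith
  have hsq : c1 ^ 2 + c2 ^ 2 + c3 ^ 2 = 1 := by
    rw [← hq, hc1, hc2, hc3, he, h4]; ring
  have hb1 : c3 ≤ c2 := by linarith
  have hb2 : -c3 ≤ c2 := by linarith
  have hb3 : c2 ≤ c1 := by linarith
  have hd : 0 < 1 + c1 := by linarith
  have hn : 1 + (c2 / (1 + c1)) ^ 2 + (c3 / (1 + c1)) ^ 2 = 2 / (1 + c1) := by
    field_simp
    linarith
  refine ⟨c2 / (1 + c1), c3 / (1 + c1), div_nonneg (by linarith) hd.le, ?_, ?_, ?_⟩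
  · rw [abs_div, abs_of_pos hd]
    exact div_le_div_of_nonneg_right (abs_le.2 ⟨by linarith, hb1⟩) hd.le
  · rw [div_pow, div_pow, ← mul_div_assoc,
      show c2 ^ 2 / (1 + c1) ^ 2 + c3 ^ 2 / (1 + c1) ^ 2 + 2 * c2 / (1 + c1) =
        (c2 ^ 2 + c3 ^ 2 + 2 * c2 * (1 + c1)) / (1 + c1) ^ 2 by field_simp,
      div_le_one (pow_pos hd 2)]
    linarith [mul_le_mul_of_nonneg_right hb3 hd.le]
  · have e1 : (1 - (c2 / (1 + c1)) ^ 2 - (c3 / (1 + c1)) ^ 2) /
        (1 + (c2 / (1 + c1)) ^ 2 + (c3 / (1 + c1)) ^ 2) = c1 := by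
      rw [hn]
      field_simp
      linarith
    have e2 : 2 * (c2 / (1 + c1)) / (1 + (c2 / (1 + c1)) ^ 2 + (c3 / (1 + c1)) ^ 2) = c2 := by
      rw [hn]
      field_simp
    have e3 : 2 * (c3 / (1 + c1)) / (1 + (c2 / (1 + c1)) ^ 2 + (c3 / (1 + c1)) ^ 2) = c3 := by
      rw [hn]
      field_simp
    funext i
    simp only [chart, e1, e2, e3]
    fin_cases i <;> simp [h4, hc1, hc2, hc3] <;> linarith

/-- A permutation of the first four axes sorting a spectrum. -/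
theorem exists_sorting (l : Fin 5 → ℝ) : ∃ π : Equiv.Perm (Fin 5), π 4 = 4 ∧
    l (π 1) ≤ l (π 0) ∧ l (π 2) ≤ l (π 1) ∧ l (π 3) ≤ l (π 2) := by
  obtain ⟨σ, hσ⟩ : ∃ σ : Equiv.Perm (Fin 4), Monotone ((fun i => -l (Fin.castSucc i)) ∘ σ) :=
    ⟨_, Tuple.monotone_sort _⟩
  refine ⟨{
    toFun := Fin.lastCases (Fin.last 4) fun i => (σ i).castSucc
    invFun := Fin.lastCases (Fin.last 4) fun i => (σ.symm i).castSucc
    left_inv := fun i => by refine Fin.lastCases ?_ (fun j => ?_) i <;> simp [-Fin.reduceLast]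
    right_inv := fun i => by refine Fin.lastCases ?_ (fun j => ?_) i <;> simp [-Fin.reduceLast] }, ?_, ?_, ?_, ?_⟩
  · show Fin.lastCases (Fin.last 4) (fun i => (σ i).castSucc) (Fin.last 4) = Fin.last 4
    exact Fin.lastCases_last
  · have := hσ (show (0 : Fin 4) ≤ 1 by decide)
    simp at this ⊢
    exact this
  · have := hσ (show (1 : Fin 4) ≤ 2 by decide)
    simp at this ⊢
    exact this
  · have := hσ (show (2 : Fin 4) ≤ 3 by decide)
    simp at this ⊢
    exact this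

/-- **Reduction of the interior inequality to the chart.** -/
theorem Qval_of_chart (al : ℝ) (L : List Term) (δ : ℝ)
    (H : ∀ (p q : ℝ) (v : Fin 5 → ℝ) (τ : Fin 5 → Fin 5 → Fin 5 → ℝ) (a : ℝ), 0 ≤ p → |q| ≤ p →
      p ^ 2 + q ^ 2 + 2 * p ≤ 1 → Admissible (chart p q) v τ → 0 ≤ a →
      δ ≤ Qval al L (chart p q) v τ a 1)
    (l v : Fin 5 → ℝ) (τ : Fin 5 → Fin 5 → Fin 5 → ℝ) (a : ℝ) (hA : Admissible l v τ)
    (ha : 0 ≤ a) : δ ≤ Qval al L l v τ a 1 := by
  obtain ⟨π, hπ, h01, h12, h23⟩ := exists_sorting l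
  have hP := hA.perm π l v τ hπ
  obtain ⟨p, q, hp, hqp, hc, he⟩ :=
    exists_chart (fun i => l (π i)) hP.l_last hP.l_sum hP.l_sq h01 h12 h23
  rw [← Qval_perm al L π l v τ a 1 hπ hA.l_sq, ← he]
  exact H p q _ _ a hp hqp hc (he ▸ hP) ha

end Vale.Agent.P098.Exact
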