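import Vale.Agent.P098.Exact.Chart

/-! A chart for the sorted unit traceless spectra in dimension six; the interior form only has to
be checked there. -/

noncomputable section

namespace Vale.Agent.P098.Exact

/-- Chart of the sorted unit traceless spectra in dimension six: stereographic coordinates around
`(1, 1, 0, -1, -1) / 2`. -/
def chart6 (p q r : ℝ) : Fin 6 → ℝ :=
  let s := 2 * p ^ 2 + 2 * q ^ 2 + 20 * r ^ 2
  let h := (1 - s) / (2 * (1 + s))
  let g := 2 / (1 + s)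
  ![h + g * (p + r), h + g * (r - p), -(g * (4 * r)), -h + g * (r + q), -h + g * (r - q), 0]

/-- The domain of the chart. -/
structure InChart6 (p q r : ℝ) : Prop where
  p_nonneg : 0 ≤ p
  q_nonneg : 0 ≤ q
  upper : 2 * p ^ 2 + 2 * q ^ 2 + 20 * r ^ 2 + 4 * p - 20 * r ≤ 1
  lower : 2 * p ^ 2 + 2 * q ^ 2 + 20 * r ^ 2 + 4 * q + 20 * r ≤ 1

/-- The chart domain is contained in a box. -/
theorem InChart6.box {p q r : ℝ} (h : InChart6 p q r) :
    p + q ≤ 1 / 2 ∧ |r| ≤ 1 / 4 := by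
  obtain ⟨hp, hq, h1, h2⟩ := h
  have : p + q ≤ 1 / 2 := by nlinarith [sq_nonneg p, sq_nonneg q, sq_nonneg r]
  refine ⟨this, abs_le.2 ⟨?_, ?_⟩⟩
  · nlinarith [sq_nonneg p, sq_nonneg q, sq_nonneg (r + 1 / 4)]
  · nlinarith [sq_nonneg p, sq_nonneg q, sq_nonneg (r - 1 / 4)]

/-- Every sorted spectrum lies in the chart. -/
theorem exists_chart6 (l : Fin 6 → ℝ) (h5 : l 5 = 0) (hs : ∑ i, l i = 0) (hq : ∑ i, l i ^ 2 = 1)
    (h01 : l 1 ≤ l 0) (h12 : l 2 ≤ l 1) (h23 : l 3 ≤ l 2) (h34 : l 4 ≤ l 3) :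
    ∃ p q r, InChart6 p q r ∧ chart6 p q r = l := by
  rw [Fin.sum_univ_six] at hs hq
  rw [h5] at hs hq
  obtain ⟨h, hh⟩ : ∃ h, h = (l 0 + l 1 - l 3 - l 4) / 2 := ⟨_, rfl⟩
  have hh0 : 0 ≤ h := by rw [hh]; linarith
  have hd : 0 < 1 + h := by linarith
  obtain ⟨A, hA⟩ : ∃ A, A = (l 0 - l 1) / 2 := ⟨_, rfl⟩
  obtain ⟨B, hB⟩ : ∃ B, B = (l 3 - l 4) / 2 := ⟨_, rfl⟩
  obtain ⟨C, hC⟩ : ∃ C, C = -(l 2) / 4 := ⟨_, rfl⟩
  have e2 : l 2 = -(l 0 + l 1 + l 3 + l 4) := by linarith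
  have hn : h ^ 2 + 2 * A ^ 2 + 2 * B ^ 2 + 20 * C ^ 2 = 1 := by
    rw [← hq, hh, hA, hB, hC, e2]; ring
  have hs' : 2 * (A / (1 + h)) ^ 2 + 2 * (B / (1 + h)) ^ 2 + 20 * (C / (1 + h)) ^ 2
      = (1 - h) / (1 + h) := by
    field_simp
    linarith
  refine ⟨A / (1 + h), B / (1 + h), C / (1 + h),
    ⟨div_nonneg (by rw [hA]; linarith) hd.le, div_nonneg (by rw [hB]; linarith) hd.le, ?_, ?_⟩, ?_⟩
  · rw [hs']
    have h1 : 4 * A - 20 * C ≤ 2 * h := by rw [hA, hC, hh, e2] at *; linarith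
    have : (1 - h) / (1 + h) + 4 * (A / (1 + h)) - 20 * (C / (1 + h)) - 1
        = (4 * A - 20 * C - 2 * h) / (1 + h) := by field_simp; ring
    have h2 : (4 * A - 20 * C - 2 * h) / (1 + h) ≤ 0 :=
      div_nonpos_of_nonpos_of_nonneg (by linarith) hd.le
    linarith
  · rw [hs']
    have h1 : 4 * B + 20 * C ≤ 2 * h := by rw [hB, hC, hh, e2] at *; linarith
    have : (1 - h) / (1 + h) + 4 * (B / (1 + h)) + 20 * (C / (1 + h)) - 1
        = (4 * B + 20 * C - 2 * h) / (1 + h) := by field_simp; ring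
    have h2 : (4 * B + 20 * C - 2 * h) / (1 + h) ≤ 0 :=
      div_nonpos_of_nonpos_of_nonneg (by linarith) hd.le
    linarith
  · have eg : 2 / (1 + (1 - h) / (1 + h)) = 1 + h := by field_simp; ring
    have eh : (1 - (1 - h) / (1 + h)) / (2 * (1 + (1 - h) / (1 + h))) = h / 2 := by
      field_simp; ring
    have ec : ∀ X : ℝ, (1 + h) * (X / (1 + h)) = X := fun X => by field_simp
    have ec' : ∀ c X : ℝ, (1 + h) * (c * (X / (1 + h))) = c * X := fun c X => by field_simp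
    funext i
    simp only [chart6, hs', eg, eh]
    simp only [mul_add, mul_sub, ec, ec']
    fin_cases i <;> simp [h5, hA, hB, hC, hh] <;> linarith

/-- A permutation of the first five axes sorting a spectrum. -/
theorem exists_sorting6 (l : Fin 6 → ℝ) : ∃ π : Equiv.Perm (Fin 6), π 5 = 5 ∧
    l (π 1) ≤ l (π 0) ∧ l (π 2) ≤ l (π 1) ∧ l (π 3) ≤ l (π 2) ∧ l (π 4) ≤ l (π 3) := by
  obtain ⟨σ, hσ⟩ : ∃ σ : Equiv.Perm (Fin 5), Monotone ((fun i => -l (Fin.castSucc i)) ∘ σ) :=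
    ⟨_, Tuple.monotone_sort _⟩
  refine ⟨{
    toFun := Fin.lastCases (Fin.last 5) fun i => (σ i).castSucc
    invFun := Fin.lastCases (Fin.last 5) fun i => (σ.symm i).castSucc
    left_inv := fun i => by refine Fin.lastCases ?_ (fun j => ?_) i <;> simp [-Fin.reduceLast]
    right_inv := fun i => by refine Fin.lastCases ?_ (fun j => ?_) i <;> simp [-Fin.reduceLast] }, ?_, ?_, ?_, ?_, ?_⟩
  · show Fin.lastCases (Fin.last 5) (fun i => (σ i).castSucc) (Fin.last 5) = Fin.last 5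
    exact Fin.lastCases_last
  · have := hσ (show (0 : Fin 5) ≤ 1 by decide)
    simp at this ⊢
    exact this
  · have := hσ (show (1 : Fin 5) ≤ 2 by decide)
    simp at this ⊢
    exact this
  · have := hσ (show (2 : Fin 5) ≤ 3 by decide)
    simp at this ⊢
    exact this
  · have := hσ (show (3 : Fin 5) ≤ 4 by decide)
    simp at this ⊢
    exact this

/-- **Reduction of the interior inequality to the chart.** -/
theorem Qval_of_chart6 (al : ℝ) (L : List Term) (δ : ℝ)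
    (H : ∀ (p q r : ℝ) (v : Fin 6 → ℝ) (τ : Fin 6 → Fin 6 → Fin 6 → ℝ) (a : ℝ), InChart6 p q r →
      Admissible (chart6 p q r) v τ → 0 ≤ a → δ ≤ Qval al L (chart6 p q r) v τ a 1)
    (l v : Fin 6 → ℝ) (τ : Fin 6 → Fin 6 → Fin 6 → ℝ) (a : ℝ) (hA : Admissible l v τ)
    (ha : 0 ≤ a) : δ ≤ Qval al L l v τ a 1 := by
  obtain ⟨π, hπ, h01, h12, h23, h34⟩ := exists_sorting6 l
  have hP := hA.perm π l v τ hπ
  obtain ⟨p, q, r, hc, he⟩ :=
    exists_chart6 (fun i => l (π i)) hP.l_last hP.l_sum hP.l_sq h01 h12 h23 h34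
  rw [← Qval_perm al L π l v τ a 1 hπ hA.l_sq, ← he]
  exact H p q r _ _ a hc (he ▸ hP) ha

end Vale.Agent.P098.Exact
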