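import Vale.Agent.P098.Exact.Chart6

/-!
A linear chart of the sorted unit traceless spectra in dimension six: `A = (l0-l1)/2`,
`B = (l3-l4)/2`, `C = -l2/4`; the fourth coordinate is determined by the unit condition.
-/

noncomputable section

namespace Vale.Agent.P098.Exact

/-- The dependent coordinate. -/
def hgt (A B C : ℝ) : ℝ := Real.sqrt (1 - 2 * A ^ 2 - 2 * B ^ 2 - 20 * C ^ 2)

/-- The linear chart. -/
def chartH (A B C : ℝ) : Fin 6 → ℝ :=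
  ![hgt A B C / 2 + A + C, hgt A B C / 2 - A + C, -(4 * C), -(hgt A B C / 2) + C + B,
    -(hgt A B C / 2) + C - B, 0]

/-- The domain of the linear chart. -/
structure InChartH (A B C : ℝ) : Prop where
  A_nonneg : 0 ≤ A
  B_nonneg : 0 ≤ B
  rad : 0 ≤ 1 - 2 * A ^ 2 - 2 * B ^ 2 - 20 * C ^ 2
  upper : 2 * A - 10 * C ≤ hgt A B C
  lower : 2 * B + 10 * C ≤ hgt A B C

theorem hgt_sq {A B C : ℝ} (h : 0 ≤ 1 - 2 * A ^ 2 - 2 * B ^ 2 - 20 * C ^ 2) :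
    hgt A B C ^ 2 = 1 - 2 * A ^ 2 - 2 * B ^ 2 - 20 * C ^ 2 :=
  Real.sq_sqrt h

/-- Polynomial consequence used to discard boxes. -/
theorem InChartH.upper_sq {A B C : ℝ} (h : InChartH A B C) :
    (max (2 * A - 10 * C) 0) ^ 2 + 2 * A ^ 2 + 2 * B ^ 2 + 20 * C ^ 2 ≤ 1 := by
  have := pow_le_pow_left₀ (le_max_right _ _) (max_le h.upper (Real.sqrt_nonneg _)) 2
  rw [hgt_sq h.rad] at this
  linarith

/-- Polynomial consequence used to discard boxes. -/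
theorem InChartH.lower_sq {A B C : ℝ} (h : InChartH A B C) :
    (max (2 * B + 10 * C) 0) ^ 2 + 2 * A ^ 2 + 2 * B ^ 2 + 20 * C ^ 2 ≤ 1 := by
  have := pow_le_pow_left₀ (le_max_right _ _) (max_le h.lower (Real.sqrt_nonneg _)) 2
  rw [hgt_sq h.rad] at this
  linarith

/-- Every sorted spectrum lies in the chart. -/
theorem exists_chartH (l : Fin 6 → ℝ) (h5 : l 5 = 0) (hs : ∑ i, l i = 0) (hq : ∑ i, l i ^ 2 = 1)
    (h01 : l 1 ≤ l 0) (h12 : l 2 ≤ l 1) (h23 : l 3 ≤ l 2) (h34 : l 4 ≤ l 3) :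
    ∃ A B C, InChartH A B C ∧ chartH A B C = l := by
  rw [Fin.sum_univ_six] at hs hq
  rw [h5] at hs hq
  obtain ⟨h, hh⟩ : ∃ h, h = (l 0 + l 1 - l 3 - l 4) / 2 := ⟨_, rfl⟩
  have hh0 : 0 ≤ h := by rw [hh]; linarith
  obtain ⟨A, hA⟩ : ∃ A, A = (l 0 - l 1) / 2 := ⟨_, rfl⟩
  obtain ⟨B, hB⟩ : ∃ B, B = (l 3 - l 4) / 2 := ⟨_, rfl⟩
  obtain ⟨C, hC⟩ : ∃ C, C = -(l 2) / 4 := ⟨_, rfl⟩
  have e2 : l 2 = -(l 0 + l 1 + l 3 + l 4) := by linarith
  have hn : 1 - 2 * A ^ 2 - 2 * B ^ 2 - 20 * C ^ 2 = h ^ 2 := by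
    rw [← hq, hh, hA, hB, hC, e2]; ring
  have he : hgt A B C = h := by rw [hgt, hn, Real.sqrt_sq hh0]
  refine ⟨A, B, C, ⟨by rw [hA]; linarith, by rw [hB]; linarith, by rw [hn]; positivity,
    by rw [he, hh, hA, hC]; linarith, by rw [he, hh, hB, hC]; linarith⟩, ?_⟩
  funext i
  fin_cases i <;> simp [chartH, he, h5] <;> linarith

/-- **Reduction of the interior inequality to the linear chart.** -/
theorem Qval_of_chartH (al : ℝ) (L : List Term) (δ : ℝ)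
    (H : ∀ (A B C : ℝ) (v : Fin 6 → ℝ) (τ : Fin 6 → Fin 6 → Fin 6 → ℝ) (a : ℝ), InChartH A B C →
      Admissible (chartH A B C) v τ → 0 ≤ a → δ ≤ Qval al L (chartH A B C) v τ a 1)
    (l v : Fin 6 → ℝ) (τ : Fin 6 → Fin 6 → Fin 6 → ℝ) (a : ℝ) (hA : Admissible l v τ)
    (ha : 0 ≤ a) : δ ≤ Qval al L l v τ a 1 := by
  obtain ⟨π, hπ, h01, h12, h23, h34⟩ := exists_sorting6 l
  have hP := hA.perm π l v τ hπ
  obtain ⟨A, B, C, hc, he⟩ :=
    exists_chartH (fun i => l (π i)) hP.l_last hP.l_sum hP.l_sq h01 h12 h23 h34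
  rw [← Qval_perm al L π l v τ a 1 hπ hA.l_sq, ← he]
  exact H A B C _ _ a hc (he ▸ hP) ha

end Vale.Agent.P098.Exact
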