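import Vale.Agent.P098.Exact.Family

/-! Derivatives and homogeneity of the certificate family. -/

noncomputable section

namespace Vale.Agent.P098.Exact

open Filter Topology
open scoped ContDiff

variable {d : ℕ} (j h q : Jet d)

theorem line_A (i k : Fin d) :
    HasDerivAt (fun s : ℝ => (j + s • h).1 i k) (h.1 i k) 0 := by
  simpa using ((hasDerivAt_id (0 : ℝ)).mul_const (h.1 i k)).const_add (j.1 i k)

theorem line_v (i : Fin d) :
    HasDerivAt (fun s : ℝ => (j + s • h).2.1 i) (h.2.1 i) 0 := by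
  simpa using ((hasDerivAt_id (0 : ℝ)).mul_const (h.2.1 i)).const_add (j.2.1 i)

theorem line_w : HasDerivAt (fun s : ℝ => (j + s • h).2.2) h.2.2 0 := by
  simpa using ((hasDerivAt_id (0 : ℝ)).mul_const h.2.2).const_add j.2.2

theorem Form.hasDerivAt (f : Form) :
    HasDerivAt (fun s : ℝ => f.val (j + s • h) q) (f.dval j h q) 0 := by
  have hA := line_A j h
  have hv := line_v j h
  cases f
  · refine HasDerivAt.fun_sum fun i _ => HasDerivAt.fun_sum fun k _ => ?_
    exact (hA i k).mul_const _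
  · refine HasDerivAt.fun_sum fun i _ => HasDerivAt.fun_sum fun k _ =>
      HasDerivAt.fun_sum fun l _ => ?_
    exact (((hA i l).mul (hA l k)).mul_const (q.1 k i)).congr_deriv (by simp)
  · refine HasDerivAt.fun_sum fun i _ => HasDerivAt.fun_sum fun k _ => ?_
    exact (((hv i).mul_const (q.1 i k)).mul (hv k)).congr_deriv (by simp; ring)
  · refine HasDerivAt.fun_sum fun i _ => HasDerivAt.fun_sum fun k _ =>
      HasDerivAt.fun_sum fun l _ => ?_
    exact ((((hv i).mul (hA i l)).mul_const (q.1 l k)).mul (hv k)).congr_deriv (by simp; ring)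
  · refine HasDerivAt.fun_sum fun i _ => HasDerivAt.fun_sum fun k _ =>
      HasDerivAt.fun_sum fun l _ => HasDerivAt.fun_sum fun o _ => ?_
    exact (((((hv i).mul (hA i l)).mul (hA l o)).mul_const (q.1 o k)).mul (hv k)).congr_deriv
      (by simp; ring)
  · refine HasDerivAt.fun_sum fun i _ => HasDerivAt.fun_sum fun k _ =>
      HasDerivAt.fun_sum fun l _ => HasDerivAt.fun_sum fun o _ => ?_
    exact (((((hv i).mul (hA i l)).mul_const (q.1 l o)).mul (hA o k)).mul (hv k)).congr_deriv
      (by simp; ring)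
  · refine HasDerivAt.fun_sum fun i _ => ?_
    exact (hv i).mul_const _
  · refine HasDerivAt.fun_sum fun i _ => HasDerivAt.fun_sum fun k _ => ?_
    exact (((hA i k).mul (hv k)).mul_const (q.2.1 i)).congr_deriv (by simp)
  · refine HasDerivAt.fun_sum fun i _ => HasDerivAt.fun_sum fun k _ =>
      HasDerivAt.fun_sum fun l _ => ?_
    exact ((((hA i l).mul (hA l k)).mul (hv k)).mul_const (q.2.1 i)).congr_deriv
      (by simp only [zero_smul, add_zero, Pi.mul_apply]; ring)
  · exact hasDerivAt_const _ _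

theorem hasDerivAt_sqA : HasDerivAt (fun s : ℝ => sqA (j + s • h)) (dsqA j h) 0 := by
  refine HasDerivAt.fun_sum fun i _ => HasDerivAt.fun_sum fun k _ => ?_
  exact ((line_A j h i k).pow 2).congr_deriv (by simp)

theorem Term.hasDerivAt_mon (t : Term) :
    HasDerivAt (fun s : ℝ => t.mon (j + s • h)) (t.dmon j h) 0 := by
  have h3 : HasDerivAt (fun s : ℝ => t3 (j + s • h)) (dt3 j h) 0 := by
    refine HasDerivAt.fun_sum fun i _ => HasDerivAt.fun_sum fun k _ =>
      HasDerivAt.fun_sum fun l _ => ?_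
    exact (((line_A j h i k).mul (line_A j h k l)).mul (line_A j h l i)).congr_deriv
      (by simp; ring)
  have h0 : HasDerivAt (fun s : ℝ => p0 (j + s • h)) (dp0 j h) 0 := by
    refine HasDerivAt.fun_sum fun i _ => ?_
    exact ((line_v j h i).pow 2).congr_deriv (by simp)
  have h1 : HasDerivAt (fun s : ℝ => p1 (j + s • h)) (dp1 j h) 0 := by
    refine HasDerivAt.fun_sum fun i _ => HasDerivAt.fun_sum fun k _ => ?_
    exact (((line_v j h i).mul (line_A j h i k)).mul (line_v j h k)).congr_deriv (by simp; ring)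
  exact ((((h3.pow t.e3).mul (h0.pow t.e0)).mul (h1.pow t.e1)).mul
    ((line_w j h).pow t.ew)).congr_deriv (by simp [Term.dmon])

variable (al : ℝ) (L : List Term)

theorem Term.hasDerivAt (t : Term) (hj : j.1 ≠ 0) :
    HasDerivAt (fun s : ℝ => t.val al (j + s • h) q) (t.dval al j h q) 0 := by
  have hs := (hasDerivAt_sqA j h).rpow_const (p := al - (t.wt : ℝ) / 2)
    (Or.inl (by simpa using (sqA_pos hj).ne'))
  exact (((hs.const_mul (t.c : ℝ)).mul (t.hasDerivAt_mon j h)).mul
    (t.form.hasDerivAt j h q)).congr_deriv (by simp [Term.dval]; ring)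

theorem hasDerivAt_omV (hj : j.1 ≠ 0) :
    HasDerivAt (fun s : ℝ => omV al L (j + s • h) q) (dOmV al L j h q) 0 := by
  induction L with
  | nil => simpa [omV, dOmV] using hasDerivAt_const (0 : ℝ) (0 : ℝ)
  | cons t L ih =>
    simp only [omV, dOmV, List.map_cons, List.sum_cons] at ih ⊢
    exact (t.hasDerivAt j h q al hj).add ih

theorem isOpen_ne : IsOpen {j : Jet d | j.1 ≠ 0} := isOpen_ne_fun continuous_fst continuous_const

theorem fderiv_omCLM (hj : j.1 ≠ 0) :
    fderiv ℝ (omCLM al L) j h q = dOmV al L j h q := by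
  have hd : DifferentiableAt ℝ (omCLM (d := d) al L) j :=
    ((smooth_omCLM al L).contDiffAt (isOpen_ne.mem_nhds hj)).differentiableAt one_ne_zero
  have hc : HasDerivAt (fun s : ℝ => j + s • h) h 0 := by
    simpa using ((hasDerivAt_id (0 : ℝ)).smul_const h).const_add j
  have h0 : j + (0 : ℝ) • h = j := by simp
  have h1 : HasDerivAt (fun s : ℝ => omCLM al L (j + s • h)) (fderiv ℝ (omCLM al L) j h) 0 :=
    hd.hasFDerivAt.comp_hasDerivAt_of_eq 0 hc h0.symm
  have h2 := h1.clm_apply (hasDerivAt_const (0 : ℝ) q)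
  simp only [map_zero, add_zero, omCLM_apply] at h2
  exact h2.unique (hasDerivAt_omV j h q al L hj)

theorem fderiv_Kf (hj : j.1 ≠ 0) :
    fderiv ℝ (Kf al) j h = al * sqA j ^ (al - 1) * dsqA j h := by
  have hd : DifferentiableAt ℝ (Kf (d := d) al) j :=
    ((smooth_Kf al).contDiffAt (isOpen_ne.mem_nhds hj)).differentiableAt two_ne_zero
  have hc : HasDerivAt (fun s : ℝ => j + s • h) h 0 := by
    simpa using ((hasDerivAt_id (0 : ℝ)).smul_const h).const_add j
  have h0 : j + (0 : ℝ) • h = j := by simp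
  have h1 : HasDerivAt (fun s : ℝ => Kf al (j + s • h)) (fderiv ℝ (Kf al) j h) 0 :=
    hd.hasFDerivAt.comp_hasDerivAt_of_eq 0 hc h0.symm
  have h2 : HasDerivAt (fun s : ℝ => Kf al (j + s • h)) (al * sqA j ^ (al - 1) * dsqA j h) 0 :=
    ((hasDerivAt_sqA j h).rpow_const (p := al)
      (Or.inl (by simpa using (sqA_pos hj).ne'))).congr_deriv (by simp; ring)
  exact h1.unique h2

theorem sqA_smul (σ : ℝ) : sqA ((σ • j.1, j.2) : Jet d) = σ ^ 2 * sqA j := by
  simp [sqA, Finset.mul_sum, mul_pow]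

theorem Form.val_smulA (f : Form) (σ : ℝ) :
    f.val ((σ • j.1, j.2) : Jet d) (σ • q.1, q.2) = σ ^ f.wt * f.val j q := by
  cases f <;>
    simp [Form.val, Form.wt, Finset.mul_sum, pow_succ, mul_comm, mul_left_comm, mul_assoc]

theorem Term.mon_smulA (t : Term) (σ : ℝ) :
    t.mon ((σ • j.1, j.2) : Jet d) = σ ^ (3 * t.e3 + t.e1) * t.mon j := by
  have h3 : t3 ((σ • j.1, j.2) : Jet d) = σ ^ 3 * t3 j := by
    simp [t3, Finset.mul_sum, pow_succ, mul_comm, mul_left_comm, mul_assoc]
  have h1 : p1 ((σ • j.1, j.2) : Jet d) = σ * p1 j := by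
    simp [p1, Finset.mul_sum, mul_comm, mul_left_comm, mul_assoc]
  have h0 : p0 ((σ • j.1, j.2) : Jet d) = p0 j := rfl
  simp only [Term.mon, h3, h1, h0, mul_pow, pow_add, pow_mul]
  ring

theorem hom_omCLM (σ : ℝ) (hσ : 0 < σ) (hj : j.1 ≠ 0) :
    omCLM al L ((σ • j.1, j.2) : Jet d) (σ • q.1, q.2) = σ ^ (2 * al) * omCLM al L j q := by
  simp only [omCLM_apply]
  induction L with
  | nil => simp [omV]
  | cons t L ih =>
    simp only [omV, List.map_cons, List.sum_cons] at ih ⊢
    rw [ih, mul_add]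
    congr 1
    simp only [Term.val, sqA_smul, Term.mon_smulA, Form.val_smulA]
    rw [Real.mul_rpow (sq_nonneg σ) (sqA_pos hj).le,
      show σ ^ (2 * al) = (σ ^ 2) ^ (al - (t.wt : ℝ) / 2) * (σ ^ (3 * t.e3 + t.e1) * σ ^ t.form.wt)
        by
          rw [← pow_add, ← Real.rpow_natCast σ 2, ← Real.rpow_mul hσ.le,
            ← Real.rpow_natCast σ (3 * t.e3 + t.e1 + t.form.wt), ← Real.rpow_add hσ]
          congr 1
          simp only [Term.wt]
          push_cast
          ring]
    ring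

theorem hom_Kf (σ : ℝ) (hσ : 0 < σ) (hj : j.1 ≠ 0) :
    Kf al ((σ • j.1, j.2) : Jet d) = σ ^ (2 * al) * Kf al j := by
  simp only [Kf, sqA_smul]
  rw [Real.mul_rpow (sq_nonneg σ) (sqA_pos hj).le, ← Real.rpow_natCast σ 2,
    ← Real.rpow_mul hσ.le]
  norm_num

end Vale.Agent.P098.Exact
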