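import Vale.Agent.P098.Jet

/-! A family of certificates: density a power of the squared Hessian, flux forms polynomial in the
jet up to that power. -/

noncomputable section

namespace Vale.Agent.P098.Exact

open Filter Topology
open scoped ContDiff

variable {d : ℕ}

/-- The basic one-forms. -/
inductive Form
  | a1 | a2 | s0 | s1 | s2 | s11 | u0 | u1 | u2 | dw

/-- Degree of a form under scaling of the Hessian. -/
def Form.wt : Form → ℕ
  | .a1 => 2
  | .a2 => 3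
  | .s0 => 1
  | .s1 => 2
  | .s2 => 3
  | .s11 => 3
  | .u0 => 0
  | .u1 => 1
  | .u2 => 2
  | .dw => 0

/-- Value of a form at a jet, applied to a direction. -/
def Form.val : Form → Jet d → Jet d → ℝ
  | .a1, j, q => ∑ i, ∑ k, j.1 i k * q.1 k i
  | .a2, j, q => ∑ i, ∑ k, ∑ l, j.1 i l * j.1 l k * q.1 k i
  | .s0, j, q => ∑ i, ∑ k, j.2.1 i * q.1 i k * j.2.1 k
  | .s1, j, q => ∑ i, ∑ k, ∑ l, j.2.1 i * j.1 i l * q.1 l k * j.2.1 k
  | .s2, j, q => ∑ i, ∑ k, ∑ l, ∑ o, j.2.1 i * j.1 i l * j.1 l o * q.1 o k * j.2.1 k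
  | .s11, j, q => ∑ i, ∑ k, ∑ l, ∑ o, j.2.1 i * j.1 i l * q.1 l o * j.1 o k * j.2.1 k
  | .u0, j, q => ∑ i, j.2.1 i * q.2.1 i
  | .u1, j, q => ∑ i, ∑ k, j.1 i k * j.2.1 k * q.2.1 i
  | .u2, j, q => ∑ i, ∑ k, ∑ l, j.1 i l * j.1 l k * j.2.1 k * q.2.1 i
  | .dw, _, q => q.2.2

/-- Derivative of a form in a jet direction. -/
def Form.dval : Form → Jet d → Jet d → Jet d → ℝ
  | .a1, _, h, q => ∑ i, ∑ k, h.1 i k * q.1 k i
  | .a2, j, h, q => ∑ i, ∑ k, ∑ l, (h.1 i l * j.1 l k + j.1 i l * h.1 l k) * q.1 k i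
  | .s0, j, h, q => ∑ i, ∑ k, (h.2.1 i * j.2.1 k + j.2.1 i * h.2.1 k) * q.1 i k
  | .s1, j, h, q => ∑ i, ∑ k, ∑ l, (h.2.1 i * j.1 i l * j.2.1 k + j.2.1 i * h.1 i l * j.2.1 k
      + j.2.1 i * j.1 i l * h.2.1 k) * q.1 l k
  | .s2, j, h, q => ∑ i, ∑ k, ∑ l, ∑ o, (h.2.1 i * j.1 i l * j.1 l o * j.2.1 k
      + j.2.1 i * h.1 i l * j.1 l o * j.2.1 k + j.2.1 i * j.1 i l * h.1 l o * j.2.1 k
      + j.2.1 i * j.1 i l * j.1 l o * h.2.1 k) * q.1 o k
  | .s11, j, h, q => ∑ i, ∑ k, ∑ l, ∑ o, (h.2.1 i * j.1 i l * j.1 o k * j.2.1 k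
      + j.2.1 i * h.1 i l * j.1 o k * j.2.1 k + j.2.1 i * j.1 i l * h.1 o k * j.2.1 k
      + j.2.1 i * j.1 i l * j.1 o k * h.2.1 k) * q.1 l o
  | .u0, _, h, q => ∑ i, h.2.1 i * q.2.1 i
  | .u1, j, h, q => ∑ i, ∑ k, (h.1 i k * j.2.1 k + j.1 i k * h.2.1 k) * q.2.1 i
  | .u2, j, h, q => ∑ i, ∑ k, ∑ l, (h.1 i l * j.1 l k * j.2.1 k + j.1 i l * h.1 l k * j.2.1 k
      + j.1 i l * j.1 l k * h.2.1 k) * q.2.1 i
  | .dw, _, _, _ => 0

/-- Squared norm of the Hessian part. -/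
def sqA (j : Jet d) : ℝ := ∑ i, ∑ k, j.1 i k ^ 2

/-- Derivative of the squared norm. -/
def dsqA (j h : Jet d) : ℝ := ∑ i, ∑ k, 2 * j.1 i k * h.1 i k

/-- Cubic trace. -/
def t3 (j : Jet d) : ℝ := ∑ i, ∑ k, ∑ l, j.1 i k * j.1 k l * j.1 l i

/-- Derivative of the cubic trace. -/
def dt3 (j h : Jet d) : ℝ := ∑ i, ∑ k, ∑ l,
  (h.1 i k * j.1 k l * j.1 l i + j.1 i k * h.1 k l * j.1 l i + j.1 i k * j.1 k l * h.1 l i)

/-- Squared gradient. -/
def p0 (j : Jet d) : ℝ := ∑ i, j.2.1 i ^ 2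

/-- Derivative of the squared gradient. -/
def dp0 (j h : Jet d) : ℝ := ∑ i, 2 * j.2.1 i * h.2.1 i

/-- Hessian at the gradient. -/
def p1 (j : Jet d) : ℝ := ∑ i, ∑ k, j.2.1 i * j.1 i k * j.2.1 k

/-- Derivative of the Hessian at the gradient. -/
def dp1 (j h : Jet d) : ℝ := ∑ i, ∑ k,
  (h.2.1 i * j.1 i k * j.2.1 k + j.2.1 i * h.1 i k * j.2.1 k + j.2.1 i * j.1 i k * h.2.1 k)

/-- A term of the flux: coefficient, form, exponents of the four invariants. -/
structure Term where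
  /-- coefficient -/
  c : ℚ
  /-- one-form -/
  form : Form
  /-- exponent of the cubic trace -/
  e3 : ℕ
  /-- exponent of the squared gradient -/
  e0 : ℕ
  /-- exponent of the Hessian at the gradient -/
  e1 : ℕ
  /-- exponent of the value -/
  ew : ℕ

/-- Total degree of a term. -/
def Term.wt (t : Term) : ℕ := t.form.wt + 3 * t.e3 + t.e1

/-- The monomial of a term. -/
def Term.mon (t : Term) (j : Jet d) : ℝ :=
  t3 j ^ t.e3 * p0 j ^ t.e0 * p1 j ^ t.e1 * j.2.2 ^ t.ew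

/-- Derivative of the monomial. -/
def Term.dmon (t : Term) (j h : Jet d) : ℝ :=
  ((((t.e3 : ℝ) * t3 j ^ (t.e3 - 1) * dt3 j h * p0 j ^ t.e0
      + t3 j ^ t.e3 * ((t.e0 : ℝ) * p0 j ^ (t.e0 - 1) * dp0 j h)) * p1 j ^ t.e1
    + t3 j ^ t.e3 * p0 j ^ t.e0 * ((t.e1 : ℝ) * p1 j ^ (t.e1 - 1) * dp1 j h)) * j.2.2 ^ t.ew
    + t3 j ^ t.e3 * p0 j ^ t.e0 * p1 j ^ t.e1 * ((t.ew : ℝ) * j.2.2 ^ (t.ew - 1) * h.2.2))

variable (al : ℝ)

/-- Value of a term. -/
def Term.val (t : Term) (j q : Jet d) : ℝ :=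
  (t.c : ℝ) * sqA j ^ (al - (t.wt : ℝ) / 2) * t.mon j * t.form.val j q

/-- Derivative of a term. -/
def Term.dval (t : Term) (j h q : Jet d) : ℝ :=
  (t.c : ℝ) * (((al - (t.wt : ℝ) / 2) * sqA j ^ (al - (t.wt : ℝ) / 2 - 1) * dsqA j h * t.mon j
      + sqA j ^ (al - (t.wt : ℝ) / 2) * t.dmon j h) * t.form.val j q
    + sqA j ^ (al - (t.wt : ℝ) / 2) * t.mon j * t.form.dval j h q)

variable (L : List Term)

/-- The flux of a term list. -/
def omV (j q : Jet d) : ℝ := (L.map fun t => t.val al j q).sum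

/-- The derivative of the flux. -/
def dOmV (j h q : Jet d) : ℝ := (L.map fun t => t.dval al j h q).sum

theorem Form.val_add (f : Form) (j q r : Jet d) : f.val j (q + r) = f.val j q + f.val j r := by
  cases f <;>
    simp [Form.val, mul_add, add_mul, Finset.sum_add_distrib]

theorem Form.val_smul (f : Form) (j q : Jet d) (a : ℝ) : f.val j (a • q) = a * f.val j q := by
  cases f <;>
    simp [Form.val, Finset.mul_sum, mul_comm, mul_left_comm, mul_assoc]

theorem omV_add (j q r : Jet d) : omV al L j (q + r) = omV al L j q + omV al L j r := by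
  induction L with
  | nil => simp [omV]
  | cons t L ih =>
    simp only [omV, List.map_cons, List.sum_cons] at ih ⊢
    rw [ih, Term.val, Term.val, Term.val, Form.val_add]
    ring

theorem omV_smul (j q : Jet d) (a : ℝ) : omV al L j (a • q) = a * omV al L j q := by
  induction L with
  | nil => simp [omV]
  | cons t L ih =>
    simp only [omV, List.map_cons, List.sum_cons] at ih ⊢
    rw [ih, Term.val, Term.val, Form.val_smul]
    ring

/-- The flux as a field of linear forms. -/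
def omCLM (j : Jet d) : Jet d →L[ℝ] ℝ :=
  LinearMap.toContinuousLinearMap
    { toFun := fun q => omV al L j q
      map_add' := omV_add al L j
      map_smul' := fun a q => omV_smul al L j q a }

theorem omCLM_apply (j q : Jet d) : omCLM al L j q = omV al L j q := rfl

/-- The density. -/
def Kf (j : Jet d) : ℝ := sqA j ^ al

theorem sqA_pos {j : Jet d} (h : j.1 ≠ 0) : 0 < sqA j := by
  obtain ⟨i, hi⟩ : ∃ i, j.1 i ≠ 0 := Function.ne_iff.1 h
  obtain ⟨k, hk⟩ : ∃ k, j.1 i k ≠ 0 := Function.ne_iff.1 hi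
  refine Finset.sum_pos' (fun a _ => Finset.sum_nonneg fun b _ => sq_nonneg _)
    ⟨i, Finset.mem_univ i, Finset.sum_pos' (fun b _ => sq_nonneg _)
      ⟨k, Finset.mem_univ k, ?_⟩⟩
  exact pow_pos (abs_pos.2 hk) 2 |>.trans_eq (sq_abs _)

theorem Kf_pos {j : Jet d} (h : j.1 ≠ 0) : 0 < Kf al j := Real.rpow_pos_of_pos (sqA_pos h) al

theorem contDiff_jA {n : ℕ∞ω} (i k : Fin d) : ContDiff ℝ n fun j : Jet d => j.1 i k :=
  contDiff_pi.1 (contDiff_pi.1 contDiff_fst i) k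

theorem contDiff_jv {n : ℕ∞ω} (i : Fin d) : ContDiff ℝ n fun j : Jet d => j.2.1 i :=
  contDiff_pi.1 (contDiff_fst.comp contDiff_snd) i

theorem contDiff_jw {n : ℕ∞ω} : ContDiff ℝ n fun j : Jet d => j.2.2 :=
  contDiff_snd.comp contDiff_snd

theorem contDiff_sqA {n : ℕ∞ω} : ContDiff ℝ n (sqA (d := d)) :=
  ContDiff.sum fun i _ => ContDiff.sum fun k _ => (contDiff_jA i k).pow 2

theorem Form.contDiff_val {n : ℕ∞ω} (f : Form) (q : Jet d) :
    ContDiff ℝ n fun j => f.val j q := by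
  have hA := fun i k => contDiff_jA (d := d) (n := n) i k
  have hv := fun i => contDiff_jv (d := d) (n := n) i
  cases f <;> simp only [Form.val] <;> fun_prop

theorem Term.contDiff_mon {n : ℕ∞ω} (t : Term) : ContDiff ℝ n (t.mon (d := d)) := by
  have hA := fun i k => contDiff_jA (d := d) (n := n) i k
  have hv := fun i => contDiff_jv (d := d) (n := n) i
  have hw := contDiff_jw (d := d) (n := n)
  unfold Term.mon t3 p0 p1
  fun_prop

theorem contDiffOn_omV {n : ℕ∞ω} (q : Jet d) :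
    ContDiffOn ℝ n (fun j => omV al L j q) {j : Jet d | j.1 ≠ 0} := by
  induction L with
  | nil => simp only [omV, List.map_nil, List.sum_nil]; exact contDiffOn_const
  | cons t L ih =>
    simp only [omV, List.map_cons, List.sum_cons]
    refine ContDiffOn.add ?_ ih
    intro j hj
    refine ContDiffAt.contDiffWithinAt ?_
    unfold Term.val
    exact (((contDiffAt_const).mul ((contDiff_sqA.contDiffAt).rpow_const_of_ne
      (sqA_pos hj).ne')).mul t.contDiff_mon.contDiffAt).mul (t.form.contDiff_val q).contDiffAt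

theorem smooth_omCLM : ContDiffOn ℝ 1 (omCLM (d := d) al L) {j : Jet d | j.1 ≠ 0} :=
  contDiffOn_clm_apply.2 fun q => contDiffOn_omV al L q

theorem smooth_Kf : ContDiffOn ℝ 2 (Kf (d := d) al) {j : Jet d | j.1 ≠ 0} := fun _ hj =>
  ((contDiff_sqA.contDiffAt).rpow_const_of_ne (sqA_pos hj).ne').contDiffWithinAt

end Vale.Agent.P098.Exact
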