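import Vale.Agent.P098.Exact.Deriv

/-! Orthogonal and scaling invariance of the family, and a normalising frame. -/

noncomputable section

namespace Vale.Agent.P098.Exact

open Matrix Filter Topology

variable {d : ℕ}

/-- The Hessian part as a matrix. -/
def mat (q : Jet d) : Matrix (Fin d) (Fin d) ℝ := Matrix.of q.1

/-- A frame change combined with a scaling of the Hessian. -/
def lam (U : Matrix (Fin d) (Fin d) ℝ) (σ : ℝ) (q : Jet d) : Jet d :=
  (fun i k => σ * (U * mat q * Uᵀ) i k, U *ᵥ q.2.1, q.2.2)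

theorem mat_smulA (q : Jet d) (σ : ℝ) : mat ((σ • q.1, q.2) : Jet d) = σ • mat q := rfl

theorem lam_eq (U : Matrix (Fin d) (Fin d) ℝ) (σ : ℝ) (q : Jet d) :
    lam U σ q = (σ • (lam U 1 q).1, (lam U 1 q).2) := by
  refine Prod.ext ?_ rfl
  funext i k
  simp [lam]

theorem lam_add (U : Matrix (Fin d) (Fin d) ℝ) (σ : ℝ) (q r : Jet d) :
    lam U σ (q + r) = lam U σ q + lam U σ r := by
  have hm : mat (q + r) = mat q + mat r := rfl
  refine Prod.ext ?_ (Prod.ext ?_ ?_)
  · funext i k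
    simp [lam, hm, Matrix.mul_add, Matrix.add_mul, mul_add]
  · simp [lam, Matrix.mulVec_add]
  · simp [lam]

theorem lam_smul (U : Matrix (Fin d) (Fin d) ℝ) (σ a : ℝ) (q : Jet d) :
    lam U σ (a • q) = a • lam U σ q := by
  have hm : mat (a • q) = a • mat q := rfl
  refine Prod.ext ?_ (Prod.ext ?_ ?_)
  · funext i k
    simp [lam, hm, mul_left_comm]
  · simp [lam, Matrix.mulVec_smul]
  · simp [lam]

theorem trace_eq (X Y : Matrix (Fin d) (Fin d) ℝ) : (X * Y).trace = ∑ i, ∑ k, X i k * Y k i := by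
  simp [Matrix.trace, Matrix.mul_apply]

theorem dot_eq (v : Fin d → ℝ) (X : Matrix (Fin d) (Fin d) ℝ) (y : Fin d → ℝ) :
    v ⬝ᵥ (X *ᵥ y) = ∑ i, ∑ k, v i * X i k * y k := by
  simp [dotProduct, Matrix.mulVec, Finset.mul_sum, mul_assoc]

theorem Form.val_a1 (j q : Jet d) : Form.a1.val j q = (mat j * mat q).trace := by
  rw [trace_eq]; rfl

theorem Form.val_a2 (j q : Jet d) : Form.a2.val j q = (mat j * mat j * mat q).trace := by
  rw [trace_eq]
  simp [Form.val, mat, Matrix.mul_apply, Finset.sum_mul]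

theorem Form.val_s0 (j q : Jet d) : Form.s0.val j q = j.2.1 ⬝ᵥ (mat q *ᵥ j.2.1) := by
  rw [dot_eq]; rfl

theorem Form.val_s1 (j q : Jet d) : Form.s1.val j q = j.2.1 ⬝ᵥ ((mat j * mat q) *ᵥ j.2.1) := by
  rw [dot_eq]
  simp [Form.val, mat, Matrix.mul_apply, Finset.sum_mul, Finset.mul_sum, mul_assoc]

theorem Form.val_s2 (j q : Jet d) :
    Form.s2.val j q = j.2.1 ⬝ᵥ ((mat j * mat j * mat q) *ᵥ j.2.1) := by
  rw [dot_eq]
  simp only [Form.val, mat, Matrix.mul_apply, Matrix.of_apply, Finset.sum_mul, Finset.mul_sum]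
  refine Finset.sum_congr rfl fun i _ => Finset.sum_congr rfl fun k _ => ?_
  rw [Finset.sum_comm]
  exact Finset.sum_congr rfl fun o _ => Finset.sum_congr rfl fun l _ => by ring

theorem Form.val_s11 (j q : Jet d) :
    Form.s11.val j q = j.2.1 ⬝ᵥ ((mat j * mat q * mat j) *ᵥ j.2.1) := by
  rw [dot_eq]
  simp only [Form.val, mat, Matrix.mul_apply, Matrix.of_apply, Finset.sum_mul, Finset.mul_sum]
  refine Finset.sum_congr rfl fun i _ => Finset.sum_congr rfl fun k _ => ?_
  rw [Finset.sum_comm]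
  exact Finset.sum_congr rfl fun o _ => Finset.sum_congr rfl fun l _ => by ring

theorem Form.val_u0 (j q : Jet d) : Form.u0.val j q = j.2.1 ⬝ᵥ q.2.1 := rfl

theorem Form.val_u1 (j q : Jet d) : Form.u1.val j q = (mat j *ᵥ j.2.1) ⬝ᵥ q.2.1 := by
  simp [Form.val, mat, dotProduct, Matrix.mulVec, Finset.sum_mul]

theorem Form.val_u2 (j q : Jet d) :
    Form.u2.val j q = ((mat j * mat j) *ᵥ j.2.1) ⬝ᵥ q.2.1 := by
  simp [Form.val, mat, dotProduct, Matrix.mulVec, Matrix.mul_apply, Finset.sum_mul]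

theorem sqA_eq (j : Jet d) : sqA j = (mat j * (mat j)ᵀ).trace := by
  rw [trace_eq]
  simp [sqA, mat, sq]

theorem t3_eq (j : Jet d) : t3 j = (mat j * mat j * mat j).trace := by
  rw [trace_eq]
  simp only [t3, mat, Matrix.mul_apply, Matrix.of_apply, Finset.sum_mul]
  refine Finset.sum_congr rfl fun i _ => ?_
  exact Finset.sum_comm

theorem p0_eq (j : Jet d) : p0 j = j.2.1 ⬝ᵥ j.2.1 := by
  simp [p0, dotProduct, sq]

theorem p1_eq (j : Jet d) : p1 j = j.2.1 ⬝ᵥ (mat j *ᵥ j.2.1) := by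
  rw [dot_eq]; rfl

section Orthogonal

variable {U : Matrix (Fin d) (Fin d) ℝ} (hU : Uᵀ * U = 1)

theorem mat_lam_one (q : Jet d) : mat (lam U 1 q) = U * mat q * Uᵀ := by
  ext i k
  simp [mat, lam]

include hU

theorem conj_mul (X Y : Matrix (Fin d) (Fin d) ℝ) :
    U * X * Uᵀ * (U * Y * Uᵀ) = U * (X * Y) * Uᵀ := by
  calc U * X * Uᵀ * (U * Y * Uᵀ) = U * X * (Uᵀ * U) * Y * Uᵀ := by simp only [Matrix.mul_assoc]
    _ = _ := by rw [hU, Matrix.mul_one, Matrix.mul_assoc U X Y]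

theorem conj_trace (X : Matrix (Fin d) (Fin d) ℝ) : (U * X * Uᵀ).trace = X.trace := by
  rw [Matrix.trace_mul_comm, ← Matrix.mul_assoc, hU, Matrix.one_mul]

theorem conj_mulVec (X : Matrix (Fin d) (Fin d) ℝ) (y : Fin d → ℝ) :
    (U * X * Uᵀ) *ᵥ (U *ᵥ y) = U *ᵥ (X *ᵥ y) := by
  rw [Matrix.mulVec_mulVec, Matrix.mul_assoc, hU, Matrix.mul_one, ← Matrix.mulVec_mulVec]

theorem dot_mulVec_orth (y z : Fin d → ℝ) : (U *ᵥ y) ⬝ᵥ (U *ᵥ z) = y ⬝ᵥ z := by
  rw [Matrix.dotProduct_mulVec, Matrix.vecMul_mulVec, hU, Matrix.vecMul_one]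

theorem Form.val_orth (f : Form) (j q : Jet d) : f.val (lam U 1 j) (lam U 1 q) = f.val j q := by
  have hv : ∀ r : Jet d, (lam U 1 r).2.1 = U *ᵥ r.2.1 := fun r => rfl
  cases f
  · rw [Form.val_a1, Form.val_a1, mat_lam_one, mat_lam_one, conj_mul hU, conj_trace hU]
  · rw [Form.val_a2, Form.val_a2, mat_lam_one, mat_lam_one, conj_mul hU, conj_mul hU,
      conj_trace hU]
  · rw [Form.val_s0, Form.val_s0, hv, mat_lam_one, conj_mulVec hU, dot_mulVec_orth hU]
  · rw [Form.val_s1, Form.val_s1, hv, mat_lam_one, mat_lam_one, conj_mul hU, conj_mulVec hU,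
      dot_mulVec_orth hU]
  · rw [Form.val_s2, Form.val_s2, hv, mat_lam_one, mat_lam_one, conj_mul hU, conj_mul hU,
      conj_mulVec hU, dot_mulVec_orth hU]
  · rw [Form.val_s11, Form.val_s11, hv, mat_lam_one, mat_lam_one, conj_mul hU, conj_mul hU,
      conj_mulVec hU, dot_mulVec_orth hU]
  · rw [Form.val_u0, Form.val_u0, hv, hv, dot_mulVec_orth hU]
  · rw [Form.val_u1, Form.val_u1, hv, hv, mat_lam_one, conj_mulVec hU, dot_mulVec_orth hU]
  · rw [Form.val_u2, Form.val_u2, hv, hv, mat_lam_one, conj_mul hU, conj_mulVec hU,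
      dot_mulVec_orth hU]
  · rfl

theorem sqA_orth (j : Jet d) : sqA (lam U 1 j) = sqA j := by
  rw [sqA_eq, sqA_eq, mat_lam_one,
    show (U * mat j * Uᵀ)ᵀ = U * (mat j)ᵀ * Uᵀ by
      simp [Matrix.transpose_mul, Matrix.mul_assoc],
    conj_mul hU, conj_trace hU]

theorem Term.mon_orth (t : Term) (j : Jet d) : t.mon (lam U 1 j) = t.mon j := by
  have h3 : t3 (lam U 1 j) = t3 j := by
    rw [t3_eq, t3_eq, mat_lam_one, conj_mul hU, conj_mul hU, conj_trace hU]
  have h0 : p0 (lam U 1 j) = p0 j := by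
    rw [p0_eq, p0_eq, show (lam U 1 j).2.1 = U *ᵥ j.2.1 from rfl, dot_mulVec_orth hU]
  have h1 : p1 (lam U 1 j) = p1 j := by
    rw [p1_eq, p1_eq, show (lam U 1 j).2.1 = U *ᵥ j.2.1 from rfl, mat_lam_one, conj_mulVec hU,
      dot_mulVec_orth hU]
  simp only [Term.mon, h3, h0, h1]
  rfl

theorem lam_ne {j : Jet d} (hj : j.1 ≠ 0) : (lam U 1 j).1 ≠ 0 := by
  intro h
  have := sqA_pos hj
  rw [← sqA_orth hU j] at this
  simp [sqA, h] at this

variable (al : ℝ) (L : List Term) {σ : ℝ} (hσ : 0 < σ)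

theorem omV_orth (j q : Jet d) : omV al L (lam U 1 j) (lam U 1 q) = omV al L j q := by
  induction L with
  | nil => simp [omV]
  | cons t L ih =>
    simp only [omV, List.map_cons, List.sum_cons] at ih ⊢
    rw [ih, Term.val, Term.val, sqA_orth hU, t.mon_orth hU, t.form.val_orth hU]

include hσ

theorem omV_lam {j : Jet d} (hj : j.1 ≠ 0) (q : Jet d) :
    omV al L (lam U σ j) (lam U σ q) = σ ^ (2 * al) * omV al L j q := by
  have h := hom_omCLM (j := lam U 1 j) (q := lam U 1 q) al L σ hσ (lam_ne hU hj)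
  rw [omCLM_apply, omCLM_apply, ← lam_eq, ← lam_eq, omV_orth hU] at h
  exact h

theorem Kf_lam {j : Jet d} (hj : j.1 ≠ 0) : Kf al (lam U σ j) = σ ^ (2 * al) * Kf al j := by
  have h := hom_Kf (j := lam U 1 j) al σ hσ (lam_ne hU hj)
  rw [← lam_eq] at h
  rw [h, Kf, Kf, sqA_orth hU]

theorem lam_ne' {j : Jet d} (hj : j.1 ≠ 0) : (lam U σ j).1 ≠ 0 := by
  rw [lam_eq]
  simpa [hσ.ne'] using lam_ne hU hj

theorem dOmV_lam {j : Jet d} (hj : j.1 ≠ 0) (h q : Jet d) :
    dOmV al L (lam U σ j) (lam U σ h) (lam U σ q) = σ ^ (2 * al) * dOmV al L j h q := by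
  have h1 := hasDerivAt_omV (lam U σ j) (lam U σ h) (lam U σ q) al L (lam_ne' hU hσ hj)
  have h2 := (hasDerivAt_omV j h q al L hj).const_mul (σ ^ (2 * al))
  refine h1.unique (h2.congr_of_eventuallyEq ?_)
  have hc : ContinuousAt (fun s : ℝ => j + s • h) 0 := by fun_prop
  filter_upwards [hc.preimage_mem_nhds (isOpen_ne.mem_nhds (show (j + (0 : ℝ) • h).1 ≠ 0 by
    simpa using hj))] with s hs
  rw [← lam_smul, ← lam_add, omV_lam hU al L hσ hs]

theorem dKf_lam {j : Jet d} (hj : j.1 ≠ 0) (h : Jet d) :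
    fderiv ℝ (Kf al) (lam U σ j) (lam U σ h) = σ ^ (2 * al) * fderiv ℝ (Kf al) j h := by
  rw [fderiv_Kf _ _ _ (lam_ne' hU hσ hj), fderiv_Kf _ _ _ hj, ← mul_assoc]
  have h1 := (hasDerivAt_sqA (lam U σ j) (lam U σ h))
  have h2 := (hasDerivAt_sqA j h).const_mul (σ ^ 2)
  have hd : dsqA (lam U σ j) (lam U σ h) = σ ^ 2 * dsqA j h := by
    refine h1.unique (h2.congr_of_eventuallyEq (.of_forall fun s => ?_))
    show sqA _ = σ ^ 2 * sqA _
    rw [← lam_smul, ← lam_add, lam_eq, sqA_smul, sqA_orth hU]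
  rw [hd, lam_eq, sqA_smul, sqA_orth hU, Real.mul_rpow (sq_nonneg σ) (sqA_pos hj).le,
    show σ ^ (2 * al) = (σ ^ 2) ^ (al - 1) * σ ^ 2 by
      rw [← Real.rpow_natCast σ 2, ← Real.rpow_mul hσ.le, ← Real.rpow_add hσ]
      congr 1
      push_cast
      ring]
  ring

end Orthogonal

/-- A bilinear form summed over an orthogonally rotated family. -/
theorem sum_orth {U : Matrix (Fin d) (Fin d) ℝ} (hU : Uᵀ * U = 1)
    (B : Jet d →L[ℝ] Jet d →L[ℝ] ℝ) (y : Fin d → Jet d) :
    ∑ k, B (∑ m, U k m • y m) (∑ m, U k m • y m) = ∑ m, B (y m) (y m) := by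
  classical
  have h : ∀ m m', ∑ k, U k m * U k m' = if m = m' then (1 : ℝ) else 0 := by
    intro m m'
    have := congrFun (congrFun hU m) m'
    simpa [Matrix.mul_apply, Matrix.one_apply] using this
  calc ∑ k, B (∑ m, U k m • y m) (∑ m, U k m • y m)
      = ∑ k, ∑ m, ∑ m', U k m * U k m' * B (y m) (y m') := by
        refine Finset.sum_congr rfl fun k _ => ?_
        simp only [map_sum, map_smul, ContinuousLinearMap.coe_sum', Finset.sum_apply,
          ContinuousLinearMap.coe_smul', Pi.smul_apply, smul_eq_mul, Finset.mul_sum]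
        rw [Finset.sum_comm]
        exact Finset.sum_congr rfl fun m _ => Finset.sum_congr rfl fun m' _ => by ring
    _ = ∑ m, ∑ m', (∑ k, U k m * U k m') * B (y m) (y m') := by
        rw [Finset.sum_comm]
        refine Finset.sum_congr rfl fun m _ => ?_
        rw [Finset.sum_comm]
        exact Finset.sum_congr rfl fun m' _ => by rw [Finset.sum_mul]
    _ = ∑ m, B (y m) (y m) := by simp [h, ite_mul]

/-- A diagonalising orthonormal frame whose last vector is a given kernel vector. -/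
theorem exists_frame {n : ℕ} (A : Matrix (Fin (n + 1)) (Fin (n + 1)) ℝ)
    (hA : ∀ i k, A i k = A k i) (x : Fin (n + 1) → ℝ) (hx : x ⬝ᵥ x = 1) (hAx : A *ᵥ x = 0) :
    ∃ (U : Matrix (Fin (n + 1)) (Fin (n + 1)) ℝ) (l : Fin (n + 1) → ℝ),
      Uᵀ * U = 1 ∧ U * Uᵀ = 1 ∧ (∀ i, U i (Fin.last n) = x i) ∧ l (Fin.last n) = 0 ∧
      A * U = U * Matrix.diagonal l := by
  classical
  obtain ⟨μ, hμ⟩ : ∃ μ, μ = 1 + ∑ i, ∑ k, |A i k| := ⟨_, rfl⟩
  have hμ0 : 0 < μ := by
    rw [hμ]
    have : 0 ≤ ∑ i, ∑ k, |A i k| := Finset.sum_nonneg fun i _ => Finset.sum_nonneg fun k _ =>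
      abs_nonneg _
    linarith
  -- no eigenvector of A has eigenvalue μ
  have hno : ∀ y : Fin (n + 1) → ℝ, A *ᵥ y = μ • y → y = 0 := by
    intro y hy
    by_contra hne
    obtain ⟨i, -, hi⟩ := Finset.exists_max_image Finset.univ (fun i => |y i|) Finset.univ_nonempty
    have hpos : 0 < |y i| := by
      obtain ⟨k, hk⟩ := Function.ne_iff.1 hne
      exact lt_of_lt_of_le (abs_pos.2 hk) (hi k (Finset.mem_univ k))
    have h1 : μ * |y i| ≤ (∑ k, |A i k|) * |y i| := by
      have := congrFun hy i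
      rw [Pi.smul_apply, smul_eq_mul] at this
      calc μ * |y i| = |μ * y i| := by rw [abs_mul, abs_of_pos hμ0]
        _ = |∑ k, A i k * y k| := by rw [← this]; rfl
        _ ≤ ∑ k, |A i k * y k| := Finset.abs_sum_le_sum_abs _ _
        _ ≤ ∑ k, |A i k| * |y i| := Finset.sum_le_sum fun k _ => by
            rw [abs_mul]; exact mul_le_mul_of_nonneg_left (hi k (Finset.mem_univ k)) (abs_nonneg _)
        _ = _ := (Finset.sum_mul _ _ _).symm
    have h2 : ∑ k, |A i k| ≤ ∑ i, ∑ k, |A i k| :=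
      Finset.single_le_sum (f := fun i => ∑ k, |A i k|)
        (fun i _ => Finset.sum_nonneg fun k _ => abs_nonneg _) (Finset.mem_univ i)
    have h3 := le_of_mul_le_mul_right h1 hpos
    linarith
  have hB : (A + μ • Matrix.vecMulVec x x).IsHermitian := by
    refine Matrix.IsHermitian.ext fun i k => ?_
    simp [hA k i, Matrix.vecMulVec_apply, mul_comm]
  let u : Fin (n + 1) → Fin (n + 1) → ℝ := fun i => ⇑(hB.eigenvectorBasis i)
  have hon : ∀ i k, u i ⬝ᵥ u k = if i = k then 1 else 0 := by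
    intro i k
    have := orthonormal_iff_ite.1 hB.eigenvectorBasis.orthonormal i k
    rw [EuclideanSpace.inner_eq_star_dotProduct] at this
    simp only [star_trivial] at this
    rw [dotProduct_comm] at this
    exact this
  have heig : ∀ i, A *ᵥ u i + (μ * (x ⬝ᵥ u i)) • x = hB.eigenvalues i • u i := by
    intro i
    have := hB.mulVec_eigenvectorBasis i
    rw [Matrix.add_mulVec, Matrix.smul_mulVec, Matrix.vecMulVec_mulVec] at this
    rw [← this]
    ext k
    simp [mul_comm, mul_left_comm]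
    rfl
  have hxu : ∀ i, (hB.eigenvalues i - μ) * (x ⬝ᵥ u i) = 0 := by
    intro i
    have := congrArg (fun y => x ⬝ᵥ y) (heig i)
    simp only [dotProduct_add, dotProduct_smul, smul_eq_mul, hx] at this
    rw [Matrix.dotProduct_mulVec, show x ᵥ* A = A *ᵥ x by
      ext k; simp [Matrix.vecMul, Matrix.mulVec, dotProduct, hA k, mul_comm], hAx,
      zero_dotProduct] at this
    linarith
  obtain ⟨i0, hi0⟩ : ∃ i0, x ⬝ᵥ u i0 ≠ 0 := by
    by_contra hno'
    push Not at hno'
    have h0 : ∀ i, inner ℝ (hB.eigenvectorBasis i) (WithLp.toLp 2 x) = (0 : ℝ) := fun i => by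
      rw [EuclideanSpace.inner_eq_star_dotProduct]
      simp only [star_trivial]
      exact hno' i
    have hz : (WithLp.toLp 2 x : EuclideanSpace ℝ (Fin (n + 1))) = 0 := by
      rw [← hB.eigenvectorBasis.sum_repr' (WithLp.toLp 2 x)]
      simp [h0]
    have : x = 0 := by simpa using congrArg WithLp.ofLp hz
    simp [this] at hx
  obtain ⟨c, hc⟩ : ∃ c, c = x ⬝ᵥ u i0 := ⟨_, rfl⟩
  have hux : u i0 = c • x := by
    have hμi : hB.eigenvalues i0 = μ := by
      rcases mul_eq_zero.1 (hxu i0) with h | h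
      · linarith
      · exact absurd h hi0
    refine sub_eq_zero.1 (hno _ ?_)
    have h := heig i0
    rw [hμi, ← hc] at h
    rw [Matrix.mulVec_sub, Matrix.mulVec_smul, hAx, smul_zero, sub_zero, smul_sub, smul_smul]
    exact eq_sub_of_add_eq h
  have hc2 : c * c = 1 := by
    have := hon i0 i0
    rw [hux, if_pos rfl] at this
    simpa [hx] using this
  have hother : ∀ i, i ≠ i0 → A *ᵥ u i = hB.eigenvalues i • u i := by
    intro i hi
    have h0 := hon i i0
    rw [hux, if_neg hi, dotProduct_smul, smul_eq_mul, mul_eq_zero] at h0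
    rcases h0 with h0 | h0
    · rw [h0, mul_zero] at hc2
      exact absurd hc2 zero_ne_one
    · have h := heig i
      rw [dotProduct_comm x, h0, mul_zero, zero_smul, add_zero] at h
      exact h
  let π : Equiv.Perm (Fin (n + 1)) := Equiv.swap i0 (Fin.last n)
  let col : Fin (n + 1) → Fin (n + 1) → ℝ := fun k => if k = Fin.last n then x else u (π k)
  let l : Fin (n + 1) → ℝ := fun k => if k = Fin.last n then 0 else hB.eigenvalues (π k)
  have hπ : ∀ k, k ≠ Fin.last n → π k ≠ i0 := by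
    intro k hk h
    refine hk ?_
    have := congrArg π h
    simpa [π] using this
  have hxc : ∀ k, k ≠ Fin.last n → x ⬝ᵥ u (π k) = 0 := by
    intro k hk
    have h0 := hon i0 (π k)
    rw [hux, if_neg (fun h => hπ k hk h.symm), smul_dotProduct, smul_eq_mul, mul_eq_zero] at h0
    rcases h0 with h0 | h0
    · rw [h0, mul_zero] at hc2
      exact absurd hc2 zero_ne_one
    · exact h0
  have hcol : ∀ a b, col a ⬝ᵥ col b = if a = b then 1 else 0 := by
    intro a b
    simp only [col]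
    by_cases ha : a = Fin.last n <;> by_cases hb : b = Fin.last n
    · simp [ha, hb, hx]
    · rw [if_pos ha, if_neg hb, hxc b hb, if_neg (show a ≠ b from fun h => hb (h ▸ ha))]
    · rw [if_neg ha, if_pos hb, dotProduct_comm, hxc a ha, if_neg (show a ≠ b from fun h => ha (h ▸ hb))]
    · rw [if_neg ha, if_neg hb, hon]
      simp [π.injective.eq_iff]
  let U : Matrix (Fin (n + 1)) (Fin (n + 1)) ℝ := Matrix.of fun i k => col k i
  have hUU : Uᵀ * U = 1 := by
    ext a b
    rw [Matrix.one_apply, ← hcol a b]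
    rfl
  refine ⟨U, l, hUU, mul_eq_one_comm.1 hUU, fun i => by simp [U, col], by simp [l], ?_⟩
  ext i k
  rw [Matrix.mul_diagonal]
  show (A *ᵥ col k) i = col k i * l k
  by_cases hk : k = Fin.last n
  · simp [col, l, hk, hAx]
  · simp [col, l, hk, hother _ (hπ k hk), mul_comm]

end Vale.Agent.P098.Exact
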