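import Vale.Agent.P098.Exact.Reduce
import Vale.Agent.P098.Exact.Boundary

/-! Certificates whose density is a table: powers of the squared Hessian times monomials in the
invariants; the gradient term enters through one auxiliary variable per direction. -/

noncomputable section

namespace Vale.Agent.P098.Exact

open Matrix
open scoped ContDiff

variable {n d : ℕ}

/-- Squared Hessian at the gradient. -/
def p2 (j : Jet d) : ℝ := ∑ i, (∑ k, j.1 i k * j.2.1 k) ^ 2

/-- Derivative of the squared Hessian at the gradient. -/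
def dp2 (j h : Jet d) : ℝ :=
  ∑ i, 2 * (∑ k, j.1 i k * j.2.1 k) * ∑ k, (h.1 i k * j.2.1 k + j.1 i k * h.2.1 k)

/-- A term of the density: coefficient and exponents of the cubic trace, the squared gradient, the
Hessian at the gradient, the squared Hessian at the gradient and the value. -/
structure KTerm where
  /-- coefficient -/
  c : ℚ
  /-- exponent of the cubic trace -/
  e3 : ℕ
  /-- exponent of the squared gradient -/
  e0 : ℕ
  /-- exponent of the Hessian at the gradient -/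
  e1 : ℕ
  /-- exponent of the squared Hessian at the gradient -/
  e2 : ℕ
  /-- exponent of the value -/
  ew : ℕ

/-- Total degree of a density term. -/
def KTerm.wt (t : KTerm) : ℕ := 3 * t.e3 + t.e1 + 2 * t.e2

/-- The part of the monomial shared with the flux terms. -/
def KTerm.base (t : KTerm) : Term :=
  { c := t.c, form := .dw, e3 := t.e3, e0 := t.e0, e1 := t.e1, ew := t.ew }

/-- Value of a density term. -/
def KTerm.val (al : ℝ) (t : KTerm) (j : Jet d) : ℝ :=
  (t.c : ℝ) * sqA j ^ (al - (t.wt : ℝ) / 2) * t.base.mon j * p2 j ^ t.e2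

/-- Derivative of a density term. -/
def KTerm.dval (al : ℝ) (t : KTerm) (j h : Jet d) : ℝ :=
  (t.c : ℝ) * (((al - (t.wt : ℝ) / 2) * sqA j ^ (al - (t.wt : ℝ) / 2 - 1) * dsqA j h * t.base.mon j
      + sqA j ^ (al - (t.wt : ℝ) / 2) * t.base.dmon j h) * p2 j ^ t.e2
    + sqA j ^ (al - (t.wt : ℝ) / 2) * t.base.mon j * ((t.e2 : ℝ) * p2 j ^ (t.e2 - 1) * dp2 j h))

variable (al : ℝ) (L L2 : List Term) (KL : List KTerm)

/-- The density of a table. -/
def Kt (j : Jet d) : ℝ := (KL.map fun t => t.val al j).sum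

/-- The derivative of the density. -/
def dKt (j h : Jet d) : ℝ := (KL.map fun t => t.dval al j h).sum

/-- The density on the normalised boundary. -/
def KVal (h t3 : ℝ) : ℝ :=
  (KL.map fun t => (t.c : ℝ) * t.base.bMon h t3 * (h ^ 2) ^ t.e2).sum

/-- The flux of two tables, the second one times the squared Hessian at the gradient. -/
def omW (j q : Jet d) : ℝ := omV al L j q + p2 j * omV (al - 1) L2 j q

/-- The derivative of the flux of two tables. -/
def dOmW (j h q : Jet d) : ℝ :=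
  dOmV al L j h q + (dp2 j h * omV (al - 1) L2 j q + p2 j * dOmV (al - 1) L2 j h q)

/-- The flux of two tables as a field of linear forms. -/
def omW' (j : Jet d) : Jet d →L[ℝ] ℝ := omCLM al L j + p2 j • omCLM (al - 1) L2 j

theorem omW'_apply (j q : Jet d) : omW' al L L2 j q = omW al L L2 j q := by
  simp [omW', omW, omCLM_apply]

/-- The interior quadratic form in `(τ, a, b, y)`. -/
def QvalK (l v : Fin (n + 1) → ℝ) (τ : Fin (n + 1) → Fin (n + 1) → Fin (n + 1) → ℝ)
    (y : Fin (n + 1) → ℝ) (a b : ℝ) : ℝ :=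
  ∑ k, (dOmW al L L2 (jet0 l v) (qdir l v τ a b k) (qdir l v τ a b k)
      + y k * dKt al KL (jet0 l v) (qdir l v τ a b k) + Kt al KL (jet0 l v) * y k ^ 2)
    + b ^ 2 * (omW al L L2 (jet0 l v) (ljet0 l v)
      - ((((n + 1 : ℕ) : ℝ) - 2) / 2) ^ 2 * Kt al KL (jet0 l v))

theorem contDiff_p2 {k : ℕ∞ω} : ContDiff ℝ k (p2 (d := d)) := by
  have hA := fun i m => contDiff_jA (d := d) (n := k) i m
  have hv := fun i => contDiff_jv (d := d) (n := k) i
  unfold p2
  fun_prop

theorem smooth_omW : ContDiffOn ℝ 1 (omW' (d := d) al L L2) {j : Jet d | j.1 ≠ 0} :=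
  (smooth_omCLM al L).add (contDiff_p2.contDiffOn.smul (smooth_omCLM (al - 1) L2))

theorem hasDerivAt_p2 (j h : Jet d) :
    HasDerivAt (fun s : ℝ => p2 (j + s • h)) (dp2 j h) 0 := by
  refine HasDerivAt.fun_sum fun i _ => ?_
  have hi : HasDerivAt (fun s : ℝ => ∑ k, (j + s • h).1 i k * (j + s • h).2.1 k)
      (∑ k, (h.1 i k * j.2.1 k + j.1 i k * h.2.1 k)) 0 :=
    HasDerivAt.fun_sum fun k _ => ((line_A j h i k).mul (line_v j h k)).congr_deriv (by simp)
  exact (hi.pow 2).congr_deriv (by simp)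

theorem hasDerivAt_omW {j : Jet d} (h q : Jet d) (hj : j.1 ≠ 0) :
    HasDerivAt (fun s : ℝ => omW al L L2 (j + s • h) q) (dOmW al L L2 j h q) 0 :=
  (hasDerivAt_omV j h q al L hj).fun_add
    (((hasDerivAt_p2 j h).mul (hasDerivAt_omV j h q (al - 1) L2 hj)).congr_deriv (by simp))

theorem fderiv_omW' {j : Jet d} (h q : Jet d) (hj : j.1 ≠ 0) :
    fderiv ℝ (omW' al L L2) j h q = dOmW al L L2 j h q := by
  have hd : DifferentiableAt ℝ (omW' (d := d) al L L2) j :=
    ((smooth_omW al L L2).contDiffAt (isOpen_ne.mem_nhds hj)).differentiableAt one_ne_zero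
  have hc : HasDerivAt (fun s : ℝ => j + s • h) h 0 := by
    simpa using ((hasDerivAt_id (0 : ℝ)).smul_const h).const_add j
  have h0 : j + (0 : ℝ) • h = j := by simp
  have h1 : HasDerivAt (fun s : ℝ => omW' al L L2 (j + s • h))
      (fderiv ℝ (omW' al L L2) j h) 0 :=
    hd.hasFDerivAt.comp_hasDerivAt_of_eq 0 hc h0.symm
  have h2 := h1.clm_apply (hasDerivAt_const (0 : ℝ) q)
  simp only [map_zero, add_zero, omW'_apply] at h2
  exact h2.unique (hasDerivAt_omW al L L2 h q hj)

theorem smooth_Kt : ContDiffOn ℝ 2 (Kt (d := d) al KL) {j : Jet d | j.1 ≠ 0} := by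
  induction KL with
  | nil => exact (contDiffOn_const (c := (0 : ℝ))).congr fun j _ => by simp [Kt]
  | cons t KL ih =>
    unfold Kt at ih ⊢
    simp only [List.map_cons, List.sum_cons]
    refine ContDiffOn.add (fun j hj => ContDiffAt.contDiffWithinAt ?_) ih
    have hA := fun i k => contDiff_jA (d := d) (n := 2) i k
    have hv := fun i => contDiff_jv (d := d) (n := 2) i
    have h2 : ContDiff ℝ 2 (p2 (d := d)) := by unfold p2; fun_prop
    unfold KTerm.val
    exact ((contDiffAt_const.mul ((contDiff_sqA.contDiffAt).rpow_const_of_ne (sqA_pos hj).ne')).mul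
      t.base.contDiff_mon.contDiffAt).mul (h2.pow _).contDiffAt

theorem hasDerivAt_Kt {j : Jet d} (h : Jet d) (hj : j.1 ≠ 0) :
    HasDerivAt (fun s : ℝ => Kt al KL (j + s • h)) (dKt al KL j h) 0 := by
  induction KL with
  | nil => simpa [Kt, dKt] using hasDerivAt_const (0 : ℝ) (0 : ℝ)
  | cons t KL ih =>
    simp only [Kt, dKt, List.map_cons, List.sum_cons] at ih ⊢
    refine HasDerivAt.fun_add ?_ ih
    have hs := (hasDerivAt_sqA j h).rpow_const (p := al - (t.wt : ℝ) / 2)
      (Or.inl (by simpa using (sqA_pos hj).ne'))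
    have h2 := hasDerivAt_p2 j h
    exact (((hs.const_mul (t.c : ℝ)).mul (t.base.hasDerivAt_mon j h)).mul
      (h2.pow t.e2)).congr_deriv (by simp [KTerm.dval]; ring)

theorem fderiv_Kt {j : Jet d} (h : Jet d) (hj : j.1 ≠ 0) :
    fderiv ℝ (Kt al KL) j h = dKt al KL j h := by
  have hd : DifferentiableAt ℝ (Kt (d := d) al KL) j :=
    ((smooth_Kt al KL).contDiffAt (isOpen_ne.mem_nhds hj)).differentiableAt two_ne_zero
  have hc : HasDerivAt (fun s : ℝ => j + s • h) h 0 := by
    simpa using ((hasDerivAt_id (0 : ℝ)).smul_const h).const_add j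
  have h0 : j + (0 : ℝ) • h = j := by simp
  exact (hd.hasFDerivAt.comp_hasDerivAt_of_eq 0 hc h0.symm).unique (hasDerivAt_Kt al KL h hj)

theorem p2_smulA (j : Jet d) (σ : ℝ) : p2 ((σ • j.1, j.2) : Jet d) = σ ^ 2 * p2 j := by
  simp only [p2, Pi.smul_apply, smul_eq_mul, mul_assoc, ← Finset.mul_sum, mul_pow]

theorem hom_Kt {j : Jet d} (σ : ℝ) (hσ : 0 < σ) (hj : j.1 ≠ 0) :
    Kt al KL ((σ • j.1, j.2) : Jet d) = σ ^ (2 * al) * Kt al KL j := by
  induction KL with
  | nil => simp [Kt]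
  | cons t KL ih =>
    simp only [Kt, List.map_cons, List.sum_cons] at ih ⊢
    rw [ih, mul_add]
    congr 1
    simp only [KTerm.val, sqA_smul, Term.mon_smulA, p2_smulA, mul_pow, ← pow_mul]
    rw [Real.mul_rpow (sq_nonneg σ) (sqA_pos hj).le,
      show σ ^ (2 * al) = (σ ^ 2) ^ (al - (t.wt : ℝ) / 2) *
          (σ ^ (3 * t.base.e3 + t.base.e1) * σ ^ (2 * t.e2)) by
        rw [← pow_add, ← Real.rpow_natCast σ 2, ← Real.rpow_mul hσ.le,
          ← Real.rpow_natCast σ (3 * t.base.e3 + t.base.e1 + 2 * t.e2), ← Real.rpow_add hσ]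
        congr 1
        simp only [KTerm.wt, KTerm.base]
        push_cast
        ring]
    ring

theorem hom_omW {j q : Jet d} (σ : ℝ) (hσ : 0 < σ) (hj : j.1 ≠ 0) :
    omW' al L L2 ((σ • j.1, j.2) : Jet d) (σ • q.1, q.2) = σ ^ (2 * al) * omW' al L L2 j q := by
  have e : σ ^ (2 * al) = σ ^ 2 * σ ^ (2 * (al - 1)) := by
    rw [← Real.rpow_natCast σ 2, ← Real.rpow_add hσ]
    congr 1
    push_cast
    ring
  simp only [omW', FunLike.coe_add, FunLike.coe_smul, Pi.add_apply, Pi.smul_apply, smul_eq_mul,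
    p2_smulA, hom_omCLM (j := j) (q := q) al L σ hσ hj, hom_omCLM (j := j) (q := q) (al - 1) L2 σ hσ hj]
  rw [e]
  ring

section Orthogonal

variable {U : Matrix (Fin d) (Fin d) ℝ} (hU : Uᵀ * U = 1) {σ : ℝ} (hσ : 0 < σ)

include hU

theorem p2_orth (j : Jet d) : p2 (lam U 1 j) = p2 j := by
  have e : ∀ q : Jet d, p2 q = (mat q *ᵥ q.2.1) ⬝ᵥ (mat q *ᵥ q.2.1) := fun q => by
    simp [p2, dotProduct, sq, mat, Matrix.mulVec]
  rw [e, e, mat_lam_one, show (lam U 1 j).2.1 = U *ᵥ j.2.1 from rfl, conj_mulVec hU,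
    dot_mulVec_orth hU]

theorem Kt_orth (j : Jet d) : Kt al KL (lam U 1 j) = Kt al KL j := by
  simp only [Kt, KTerm.val, sqA_orth hU, Term.mon_orth hU, p2_orth hU]

include hσ

theorem Kt_lam {j : Jet d} (hj : j.1 ≠ 0) :
    Kt al KL (lam U σ j) = σ ^ (2 * al) * Kt al KL j := by
  have h := hom_Kt al KL (j := lam U 1 j) σ hσ (lam_ne hU hj)
  rw [← lam_eq, Kt_orth al KL hU] at h
  exact h

theorem dKt_lam {j : Jet d} (hj : j.1 ≠ 0) (h : Jet d) :
    dKt al KL (lam U σ j) (lam U σ h) = σ ^ (2 * al) * dKt al KL j h := by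
  have h1 := hasDerivAt_Kt al KL (lam U σ h) (lam_ne' hU hσ hj)
  have h2 := (hasDerivAt_Kt al KL h hj).const_mul (σ ^ (2 * al))
  refine h1.unique (h2.congr_of_eventuallyEq ?_)
  have hc : ContinuousAt (fun s : ℝ => j + s • h) 0 := by fun_prop
  filter_upwards [hc.preimage_mem_nhds (isOpen_ne.mem_nhds (show (j + (0 : ℝ) • h).1 ≠ 0 by
    simpa using hj))] with s hs
  rw [← lam_smul, ← lam_add, Kt_lam al KL hU hσ hs]

theorem omW_lam {j : Jet d} (hj : j.1 ≠ 0) (q : Jet d) :
    omW al L L2 (lam U σ j) (lam U σ q) = σ ^ (2 * al) * omW al L L2 j q := by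
  have e : σ ^ (2 * al) = σ ^ 2 * σ ^ (2 * (al - 1)) := by
    rw [← Real.rpow_natCast σ 2, ← Real.rpow_add hσ]
    congr 1
    push_cast
    ring
  rw [omW, omW, omV_lam hU al L hσ hj, omV_lam hU (al - 1) L2 hσ hj, lam_eq U σ j, p2_smulA,
    p2_orth hU, e]
  ring

theorem dOmW_lam {j : Jet d} (hj : j.1 ≠ 0) (h q : Jet d) :
    dOmW al L L2 (lam U σ j) (lam U σ h) (lam U σ q) = σ ^ (2 * al) * dOmW al L L2 j h q := by
  have h1 := hasDerivAt_omW al L L2 (lam U σ h) (lam U σ q) (lam_ne' hU hσ hj)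
  have h2 := (hasDerivAt_omW al L L2 h q hj).const_mul (σ ^ (2 * al))
  refine h1.unique (h2.congr_of_eventuallyEq ?_)
  have hc : ContinuousAt (fun s : ℝ => j + s • h) 0 := by fun_prop
  filter_upwards [hc.preimage_mem_nhds (isOpen_ne.mem_nhds (show (j + (0 : ℝ) • h).1 ≠ 0 by
    simpa using hj))] with s hs
  rw [← lam_smul, ← lam_add, omW_lam al L L2 hU hσ hs]

end Orthogonal

/-- **Normal form of a jet and its derivatives.** -/
theorem normal_form
    (x : Fin (n + 1) → ℝ) (A : Fin (n + 1) → Fin (n + 1) → ℝ) (v : Fin (n + 1) → ℝ) (w : ℝ)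
    (T : Fin (n + 1) → Fin (n + 1) → Fin (n + 1) → ℝ)
    (hx : ∑ i, x i ^ 2 = 1) (hA : A ≠ 0) (hAs : ∀ i j, A i j = A j i) (hAt : ∑ i, A i i = 0)
    (hAx : ∀ j, ∑ i, x i * A i j = 0) (hv : ∑ i, v i ^ 2 ≤ 1) (hw : w = ∑ i, x i * v i)
    (hw0 : 0 ≤ w) (hT1 : ∀ i j k, T i j k = T i k j) (hT2 : ∀ i j k, T i j k = T j i k)
    (hT3 : ∀ j, ∑ i, T j i i = 0) (hT4 : ∀ j k, ∑ i, x i * T i j k = -A j k) :
    ∃ (U : Matrix (Fin (n + 1)) (Fin (n + 1)) ℝ) (σ : ℝ) (l v0 : Fin (n + 1) → ℝ)
      (τ : Fin (n + 1) → Fin (n + 1) → Fin (n + 1) → ℝ), Uᵀ * U = 1 ∧ 0 < σ ∧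
      Admissible l v0 τ ∧ (jet0 l v0).1 ≠ 0 ∧ lam U σ (jet0 l v0) = (A, v, w) ∧
      (∀ k, djet x A v T w k = ∑ m, U k m • lam U σ (qdir l v0 τ σ 1 m)) ∧
      ljet A w = lam U σ (ljet0 l v0) := by
  classical
  have hxd : x ⬝ᵥ x = 1 := by simpa [dotProduct, sq] using hx
  have hAxd : (Matrix.of A) *ᵥ x = 0 := by
    funext i
    rw [Pi.zero_apply, ← hAx i]
    show ∑ k, A i k * x k = _
    exact Finset.sum_congr rfl fun k _ => by rw [hAs k i, mul_comm]
  obtain ⟨U, l1, hU, hU', hUx, hl1, hdiag⟩ := exists_frame (Matrix.of A) hAs x hxd hAxd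
  obtain ⟨σ, hσdef⟩ : ∃ σ, σ = Real.sqrt (sqA ((A, v, w) : Jet (n + 1))) := ⟨_, rfl⟩
  have hσ : 0 < σ := hσdef ▸ Real.sqrt_pos.2 (sqA_pos (j := (A, v, w)) hA)
  have hσ2 : σ ^ 2 = sqA ((A, v, w) : Jet (n + 1)) := by
    rw [hσdef, Real.sq_sqrt (sqA_pos (j := (A, v, w)) hA).le]
  obtain ⟨l, hl⟩ : ∃ l : Fin (n + 1) → ℝ, ∀ i, l i = l1 i / σ := ⟨_, fun i => rfl⟩
  obtain ⟨v0, hv0⟩ : ∃ v0 : Fin (n + 1) → ℝ, v0 = Uᵀ *ᵥ v := ⟨_, rfl⟩
  have hv0last : v0 (Fin.last n) = w := by
    rw [hv0, hw]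
    show ∑ i, U i (Fin.last n) * v i = _
    exact Finset.sum_congr rfl fun i _ => by rw [hUx]
  have hAeq : Matrix.of A = U * Matrix.diagonal l1 * Uᵀ := by
    rw [← hdiag, Matrix.mul_assoc, hU', Matrix.mul_one]
  have hjet : lam U σ (jet0 l v0) = (A, v, w) := by
    refine Prod.ext ?_ (Prod.ext ?_ ?_)
    · funext i k
      have hm : mat (jet0 l v0) = σ⁻¹ • Matrix.diagonal l1 := by
        ext a b
        by_cases h : a = b <;> simp [mat, jet0, h, hl, div_eq_inv_mul]
      show σ * (U * mat (jet0 l v0) * Uᵀ) i k = A i k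
      rw [hm, Matrix.mul_smul, Matrix.smul_mul, ← hAeq, Matrix.smul_apply, smul_eq_mul,
        ← mul_assoc, mul_inv_cancel₀ hσ.ne', one_mul, Matrix.of_apply]
    · show U *ᵥ v0 = v
      rw [hv0, Matrix.mulVec_mulVec, hU', Matrix.one_mulVec]
    · exact hv0last
  have hne0 : (jet0 l v0).1 ≠ 0 := by
    intro h
    apply hA
    have := congrArg Prod.fst hjet
    simp only at this
    rw [← this]
    funext i k
    have hm : mat (jet0 l v0) = 0 := by ext a b; exact congrFun (congrFun h a) b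
    simp [lam, hm]
  have hs1 : sqA (jet0 l v0) = 1 := by
    have h := sqA_smul (lam U 1 (jet0 l v0)) σ
    rw [← lam_eq, hjet, sqA_orth hU, ← hσ2] at h
    have := mul_left_cancel₀ (pow_ne_zero 2 hσ.ne') (h.symm.trans (mul_one (σ ^ 2)).symm)
    exact this
  -- the rotated third derivative
  obtain ⟨W, hW⟩ : ∃ W : Fin (n + 1) → Fin (n + 1) → Fin (n + 1) → ℝ, ∀ m a c,
      W m a c = σ⁻¹ * ∑ k, ∑ i, ∑ j, U k m * U i a * U j c * T k i j := ⟨_, fun m a c => rfl⟩
  have hW1 : ∀ m a c, W m a c = W m c a := by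
    intro m a c
    rw [hW, hW]
    congr 1
    refine Finset.sum_congr rfl fun k _ => ?_
    rw [Finset.sum_comm]
    exact Finset.sum_congr rfl fun i _ => Finset.sum_congr rfl fun j _ => by rw [hT1 k j i]; ring
  have hW2 : ∀ m a c, W m a c = W a m c := by
    intro m a c
    rw [hW, hW, Finset.sum_comm]
    congr 1
    exact Finset.sum_congr rfl fun i _ => Finset.sum_congr rfl fun k _ =>
      Finset.sum_congr rfl fun j _ => by rw [hT2 k i j]; ring
  have horth : ∀ a b, ∑ i, U i a * U i b = if a = b then (1 : ℝ) else 0 := by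
    intro a b
    have := congrFun (congrFun hU a) b
    simpa [Matrix.mul_apply, Matrix.one_apply] using this
  have horth' : ∀ i j, ∑ a, U i a * U j a = if i = j then (1 : ℝ) else 0 := by
    intro i j
    have := congrFun (congrFun hU' i) j
    simpa [Matrix.mul_apply, Matrix.one_apply] using this
  have hW3 : ∀ m, ∑ a, W m a a = 0 := by
    intro m
    simp only [hW, ← Finset.mul_sum]
    rw [Finset.sum_comm, Finset.sum_eq_zero, mul_zero]
    intro k _
    rw [Finset.sum_comm]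
    calc ∑ i, ∑ a, ∑ j, U k m * U i a * U j a * T k i j
        = U k m * ∑ i, ∑ j, (∑ a, U i a * U j a) * T k i j := by
          rw [Finset.mul_sum]
          refine Finset.sum_congr rfl fun i _ => ?_
          rw [Finset.sum_comm, Finset.mul_sum]
          refine Finset.sum_congr rfl fun j _ => ?_
          rw [Finset.sum_mul, Finset.mul_sum]
          exact Finset.sum_congr rfl fun a _ => by ring
      _ = U k m * ∑ i, T k i i := by simp [horth', ite_mul]
      _ = 0 := by rw [hT3, mul_zero]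
  have hconj : ∀ a c, ∑ i, ∑ j, U i a * U j c * A i j = if a = c then l1 a else 0 := by
    intro a c
    have h : Uᵀ * Matrix.of A * U = Matrix.diagonal l1 := by
      rw [Matrix.mul_assoc, hdiag, ← Matrix.mul_assoc, hU, Matrix.one_mul]
    have h' := congrFun (congrFun h a) c
    rw [Matrix.diagonal_apply] at h'
    rw [← h', Matrix.mul_apply, Finset.sum_comm]
    simp only [Matrix.mul_apply, Matrix.transpose_apply, Matrix.of_apply, Finset.sum_mul]
    exact Finset.sum_congr rfl fun j _ => Finset.sum_congr rfl fun i _ => by ring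
  have hW4 : ∀ a c, W (Fin.last n) a c = if a = c then -l a else 0 := by
    intro a c
    rw [hW, hl]
    have : ∑ k, ∑ i, ∑ j, U k (Fin.last n) * U i a * U j c * T k i j =
        -∑ i, ∑ j, U i a * U j c * A i j := by
      rw [Finset.sum_comm, ← Finset.sum_neg_distrib]
      refine Finset.sum_congr rfl fun i _ => ?_
      rw [Finset.sum_comm, ← Finset.sum_neg_distrib]
      refine Finset.sum_congr rfl fun j _ => ?_
      rw [← mul_neg, ← hT4 i j, Finset.mul_sum]
      exact Finset.sum_congr rfl fun k _ => by rw [hUx]; ring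
    rw [this, hconj]
    split <;> simp [div_eq_inv_mul]
  obtain ⟨τ, hτ⟩ : ∃ τ : Fin (n + 1) → Fin (n + 1) → Fin (n + 1) → ℝ, ∀ m a c, τ m a c =
      if m = Fin.last n ∨ a = Fin.last n ∨ c = Fin.last n then 0 else W m a c :=
    ⟨_, fun m a c => rfl⟩
  have hll : l (Fin.last n) = 0 := by rw [hl, hl1, zero_div]
  have hWτ : ∀ m a c, m ≠ Fin.last n → W m a c = τ m a c + bord l m a c := by
    intro m a c hm
    rw [hτ, bord]
    by_cases ha : a = Fin.last n
    · subst ha
      rw [if_pos (Or.inr (Or.inl rfl)), hW2, hW4, zero_add]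
      by_cases hc : c = Fin.last n
      · subst hc
        simp [hm, Ne.symm hm]
      · by_cases hcm : c = m
        · simp [hcm, hm]
        · simp [hc, hcm, show ¬ m = c from Ne.symm hcm]
    · by_cases hc : c = Fin.last n
      · subst hc
        rw [if_pos (Or.inr (Or.inr rfl)), hW1, hW2, hW4, zero_add]
        by_cases ham : a = m <;> simp [ha, ham, Ne.symm (a := a) (b := m), hm, Ne.symm hm]
      · simp [ha, hc, hm]
  have hvd : ∀ a, v0 a = ∑ i, U i a * v i := fun a => by rw [hv0]; rfl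
  have hAdm : Admissible l v0 τ := by
    refine ⟨hll, ?_, ?_, ?_, ?_, ?_, ?_, ?_, ?_⟩
    · have h : (Uᵀ * Matrix.of A * U).trace = (Matrix.of A).trace := by
        rw [Matrix.trace_mul_comm, ← Matrix.mul_assoc, hU', Matrix.one_mul]
      rw [Matrix.mul_assoc, hdiag, ← Matrix.mul_assoc, hU, Matrix.one_mul, Matrix.trace_diagonal,
        show (Matrix.of A).trace = ∑ i, A i i from rfl, hAt] at h
      simp only [hl, ← Finset.sum_div, h, zero_div]
    · rw [← hs1]
      simp [sqA, jet0]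
    · rw [show ∑ i, v0 i ^ 2 = v0 ⬝ᵥ v0 by simp [dotProduct, sq], ← dot_mulVec_orth hU,
        show U *ᵥ v0 = v by rw [hv0, Matrix.mulVec_mulVec, hU', Matrix.one_mulVec]]
      simpa [dotProduct, sq] using hv
    · rw [hv0last]; exact hw0
    · intro i k m
      rw [hτ, hτ, hW1 i k m]
      simp only [or_comm (a := k = Fin.last n)]
    · intro i k m
      rw [hτ, hτ, hW2 i k m]
      simp only [or_left_comm (a := i = Fin.last n)]
    · intro k
      by_cases hk : k = Fin.last n
      · exact Finset.sum_eq_zero fun i _ => by rw [hτ, if_pos (Or.inl hk)]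
      · rw [← hW3 k, Finset.sum_congr rfl fun i _ => hWτ k i i hk, Finset.sum_add_distrib,
          left_eq_add]
        refine Finset.sum_eq_zero fun i _ => ?_
        rw [bord]
        by_cases hi : i = k <;> simp [hi, hk]
    · intro k m
      rw [hτ, if_pos (Or.inl rfl)]
  -- the jet derivatives are the rotated normalised directions
  obtain ⟨q, hq⟩ : ∃ q : Fin (n + 1) → Jet (n + 1), ∀ m, qdir l v0 τ σ 1 m = q m :=
    ⟨_, fun m => rfl⟩
  have hq1 : ∀ m, mat (q m) = Matrix.of fun a c => if m = Fin.last n then 0 else W m a c := by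
    intro m
    ext a c
    rw [← hq]
    by_cases hm : m = Fin.last n
    · subst hm
      simp [mat, qdir, hτ, bord, hll]
    · simp [mat, qdir, hm, hWτ m a c hm]
  have hdj : ∀ k, djet x A v T w k = ∑ m, U k m • lam U σ (q m) := by
    intro k
    refine Prod.ext ?_ (Prod.ext ?_ ?_)
    · funext i j
      simp only [djet, Prod.fst_sum, Finset.sum_apply, Prod.smul_fst, Pi.smul_apply, smul_eq_mul,
        lam, hq1, Matrix.mul_apply, Matrix.of_apply, Matrix.transpose_apply, Finset.mul_sum,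
        Finset.sum_mul]
      have hWexp : ∀ m, ∀ a c, σ * W m a c =
          ∑ k, ∑ i, ∑ j, U k m * U i a * U j c * T k i j := fun m a c => by
        rw [hW, ← mul_assoc, mul_inv_cancel₀ hσ.ne', one_mul]
      have hAexp : A i j = ∑ c, ∑ a, U i a * (if a = c then l1 a else 0) * U j c := by
        have := congrFun (congrFun hAeq i) j
        rw [Matrix.of_apply] at this
        rw [this, Matrix.mul_apply]
        simp [Matrix.mul_apply, Matrix.diagonal_apply]
      have hTexp : T k i j = ∑ m, ∑ c, ∑ a, U k m * (σ * (U i a * W m a c * U j c)) := by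
        symm
        calc ∑ m, ∑ c, ∑ a, U k m * (σ * (U i a * W m a c * U j c))
            = ∑ m, ∑ c, ∑ a, ∑ k', ∑ i', ∑ j',
                (U k m * U k' m) * (U i a * U i' a) * (U j c * U j' c) * T k' i' j' := by
              refine Finset.sum_congr rfl fun m _ => Finset.sum_congr rfl fun c _ =>
                Finset.sum_congr rfl fun a _ => ?_
              rw [show U k m * (σ * (U i a * W m a c * U j c)) =
                U k m * U i a * U j c * (σ * W m a c) by ring, hWexp, Finset.mul_sum]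
              refine Finset.sum_congr rfl fun k' _ => ?_
              rw [Finset.mul_sum]
              refine Finset.sum_congr rfl fun i' _ => ?_
              rw [Finset.mul_sum]
              exact Finset.sum_congr rfl fun j' _ => by ring
          _ = ∑ k', ∑ i', ∑ j', (∑ m, U k m * U k' m) * (∑ a, U i a * U i' a) *
                (∑ c, U j c * U j' c) * T k' i' j' := by
              rw [Finset.sum_congr rfl fun m _ => Finset.sum_congr rfl fun c _ => Finset.sum_comm,
                Finset.sum_congr rfl fun m _ => Finset.sum_comm, Finset.sum_comm]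
              refine Finset.sum_congr rfl fun k' _ => ?_
              rw [Finset.sum_congr rfl fun m _ => Finset.sum_congr rfl fun c _ => Finset.sum_comm,
                Finset.sum_congr rfl fun m _ => Finset.sum_comm, Finset.sum_comm]
              refine Finset.sum_congr rfl fun i' _ => ?_
              rw [Finset.sum_congr rfl fun m _ => Finset.sum_congr rfl fun c _ => Finset.sum_comm,
                Finset.sum_congr rfl fun m _ => Finset.sum_comm, Finset.sum_comm]
              refine Finset.sum_congr rfl fun j' _ => ?_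
              simp only [Finset.sum_mul, Finset.mul_sum]
              rw [Finset.sum_comm]
              exact Finset.sum_congr rfl fun c _ => Finset.sum_comm
          _ = T k i j := by simp [horth', ite_mul]
      rw [hTexp, hAexp, Finset.mul_sum]
      have hlast : ∀ m, ∑ c, ∑ a, U k m *
          (σ * (U i a * (if m = Fin.last n then 0 else W m a c) * U j c)) =
          (∑ c, ∑ a, U k m * (σ * (U i a * W m a c * U j c))) +
            if m = Fin.last n then x k * ∑ c, ∑ a, U i a * (if a = c then l1 a else 0) * U j c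
            else 0 := by
        intro m
        by_cases hm : m = Fin.last n
        · subst hm
          simp only [if_true, mul_zero, zero_mul, Finset.sum_const_zero, Finset.mul_sum,
            ← Finset.sum_add_distrib]
          refine (Finset.sum_eq_zero fun c _ => Finset.sum_eq_zero fun a _ => ?_).symm
          rw [hW4, hUx]
          by_cases hac : a = c
          · rw [if_pos hac, if_pos hac, hl]
            field_simp
            ring
          · simp [hac]
        · simp [hm]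
      rw [Finset.sum_congr rfl fun m _ => hlast m, Finset.sum_add_distrib, Finset.sum_ite_eq',
        if_pos (Finset.mem_univ _), Finset.mul_sum]
      ring
    · funext j
      simp only [djet, Prod.snd_sum, Prod.fst_sum, Prod.smul_snd, Prod.smul_fst, Finset.sum_apply,
        Pi.smul_apply, smul_eq_mul, lam, ← hq, qdir, Matrix.mulVec, dotProduct, mul_ite, mul_zero,
        Finset.sum_ite_eq, Finset.mem_univ, if_true]
      have := congrFun (congrFun hAeq k) j
      rw [Matrix.of_apply, Matrix.mul_apply] at this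
      rw [this]
      refine Finset.sum_congr rfl fun m _ => ?_
      rw [Matrix.mul_diagonal, Matrix.transpose_apply, hl]
      field_simp
    · simp only [djet, Prod.snd_sum, Prod.smul_snd, smul_eq_mul, lam, ← hq, qdir, one_mul, mul_ite,
        mul_zero]
      have hsum : ∑ m, U k m * v0 m = v k := by
        have := congrFun (show U *ᵥ v0 = v by rw [hv0, Matrix.mulVec_mulVec, hU',
          Matrix.one_mulVec]) k
        exact this
      rw [← hsum, Finset.sum_ite, Finset.sum_const_zero, zero_add,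
        ← Finset.sum_filter_add_sum_filter_not Finset.univ (fun m => m = Fin.last n),
        Finset.filter_eq' Finset.univ (Fin.last n), if_pos (Finset.mem_univ _),
        Finset.sum_singleton, hv0last, hUx]
      ring
  have hl' : ljet A w = lam U σ (ljet0 l v0) := by
    refine Prod.ext ?_ (Prod.ext ?_ ?_)
    · funext i k
      have hm : mat (ljet0 l v0) =
          ((((n + 1 : ℕ) : ℝ) - 3) / σ) • Matrix.diagonal l1 := by
        ext a b
        by_cases h : a = b <;> simp [mat, ljet0, h, hl]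
        field_simp
      show _ = σ * (U * mat (ljet0 l v0) * Uᵀ) i k
      rw [hm, Matrix.mul_smul, Matrix.smul_mul, ← hAeq, Matrix.smul_apply, smul_eq_mul,
        ← mul_assoc, mul_div_cancel₀ _ hσ.ne', Matrix.of_apply]
      simp [ljet]
    · simp [ljet, lam, ljet0]
    · simp [ljet, lam, ljet0, hv0last]
  exact ⟨U, σ, l, v0, τ, hU, hσ, hAdm, hne0, hjet, fun k => by simp only [hq, hdj], hl'⟩

/-- The values of the density table at normalised jets are bounded. -/
theorem Kt_le {l v : Fin (n + 1) → ℝ} {τ : Fin (n + 1) → Fin (n + 1) → Fin (n + 1) → ℝ}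
    (h : Admissible l v τ) :
    Kt al KL (jet0 l v) ≤ (KL.map fun t => |(t.c : ℝ)|).sum := by
  have hs : sqA (jet0 l v) = 1 := by rw [← h.l_sq]; simp [sqA, jet0]
  have hl1 : ∀ i, |l i| ≤ 1 := fun i => by
    rw [← sq_le_one_iff_abs_le_one, ← h.l_sq]
    exact Finset.single_le_sum (fun j _ => sq_nonneg (l j)) (Finset.mem_univ i)
  have ht : |t3 (jet0 l v)| ≤ 1 := by
    have e : t3 (jet0 l v) = ∑ i, l i ^ 3 := by simp [t3, jet0, pow_succ]
    rw [e, ← h.l_sq]
    refine (Finset.abs_sum_le_sum_abs _ _).trans (Finset.sum_le_sum fun i _ => ?_)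
    rw [pow_succ, abs_mul, abs_of_nonneg (sq_nonneg (l i))]
    exact mul_le_of_le_one_right (sq_nonneg _) (hl1 i)
  have h0 : |p0 (jet0 l v)| ≤ 1 := by
    show |∑ i, v i ^ 2| ≤ 1
    rw [abs_of_nonneg (Finset.sum_nonneg fun i _ => sq_nonneg _)]
    exact h.v_sq
  have h1 : |p1 (jet0 l v)| ≤ 1 := by
    have e : p1 (jet0 l v) = ∑ i, v i * l i * v i := by simp [p1, jet0]
    rw [e]
    refine (Finset.abs_sum_le_sum_abs _ _).trans (le_trans (Finset.sum_le_sum fun i _ => ?_) h.v_sq)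
    rw [show v i * l i * v i = l i * v i ^ 2 by ring, abs_mul, abs_of_nonneg (sq_nonneg (v i))]
    exact mul_le_of_le_one_left (sq_nonneg _) (hl1 i)
  have hw : |(jet0 l v).2.2| ≤ 1 := by
    show |v (Fin.last n)| ≤ 1
    rw [← sq_le_one_iff_abs_le_one]
    exact le_trans (Finset.single_le_sum (fun j _ => sq_nonneg (v j)) (Finset.mem_univ _)) h.v_sq
  have h2 : |p2 (jet0 l v)| ≤ 1 := by
    have e : p2 (jet0 l v) = ∑ i, (l i * v i) ^ 2 := by simp [p2, jet0]
    rw [e, abs_of_nonneg (Finset.sum_nonneg fun i _ => sq_nonneg _)]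
    refine le_trans (Finset.sum_le_sum fun i _ => ?_) h.v_sq
    rw [mul_pow]
    exact mul_le_of_le_one_left (sq_nonneg _) (by simpa [sq_abs] using pow_le_one₀ (n := 2) (abs_nonneg _) (hl1 i))
  induction KL with
  | nil => simp [Kt]
  | cons t KL ih =>
    simp only [Kt, List.map_cons, List.sum_cons] at ih ⊢
    refine add_le_add ((le_abs_self _).trans ?_) ih
    simp only [KTerm.val, KTerm.base, hs, Real.one_rpow, Term.mon, mul_one, abs_mul, abs_pow]
    rw [mul_assoc]
    exact mul_le_of_le_one_right (abs_nonneg _) (mul_le_one₀ (mul_le_one₀ (mul_le_one₀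
      (mul_le_one₀ (pow_le_one₀ (abs_nonneg _) ht) (by positivity) (pow_le_one₀ (abs_nonneg _) h0))
      (by positivity) (pow_le_one₀ (abs_nonneg _) h1)) (by positivity)
      (pow_le_one₀ (abs_nonneg _) hw)) (by positivity) (pow_le_one₀ (abs_nonneg _) h2))

/-- A positive interior form makes the density positive. -/
theorem Kt_ge {δ : ℝ} (hn : 0 < n + 1)
    (hQ : ∀ (l v : Fin (n + 1) → ℝ) (τ : Fin (n + 1) → Fin (n + 1) → Fin (n + 1) → ℝ)
      (y : Fin (n + 1) → ℝ) (a : ℝ), Admissible l v τ → 0 ≤ a →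
      δ * (1 + ∑ k, y k ^ 2) ≤ QvalK al L L2 KL l v τ y a 1)
    {l v : Fin (n + 1) → ℝ} {τ : Fin (n + 1) → Fin (n + 1) → Fin (n + 1) → ℝ}
    (h : Admissible l v τ) : δ ≤ Kt al KL (jet0 l v) := by
  by_contra hlt
  rw [not_le] at hlt
  obtain ⟨c0, hc0⟩ : ∃ c, c = QvalK al L L2 KL l v τ 0 0 1 - δ := ⟨_, rfl⟩
  obtain ⟨k0, -⟩ : ∃ k : Fin (n + 1), k = ⟨0, hn⟩ := ⟨_, rfl⟩
  obtain ⟨g, hg⟩ : ∃ g, g = dKt al KL (jet0 l v) (qdir l v τ 0 1 k0) := ⟨_, rfl⟩
  obtain ⟨K, hK⟩ : ∃ K, K = Kt al KL (jet0 l v) := ⟨_, rfl⟩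
  rw [← hK] at hlt
  have key : ∀ R : ℝ, 0 ≤ c0 + g * R + (K - δ) * R ^ 2 := by
    intro R
    have := hQ l v τ (Pi.single k0 R) 0 h le_rfl
    have e1 : ∑ k, Pi.single (M := fun _ => ℝ) k0 R k ^ 2 = R ^ 2 := by
      rw [Finset.sum_eq_single k0 (fun b _ hb => by simp [hb]) (fun hb => absurd (Finset.mem_univ _) hb)]
      simp
    have e2 : QvalK al L L2 KL l v τ (Pi.single k0 R) 0 1 =
        QvalK al L L2 KL l v τ 0 0 1 + (R * g + K * R ^ 2) := by
      have e3 : ∑ k, (Pi.single (M := fun _ => ℝ) k0 R k * dKt al KL (jet0 l v) (qdir l v τ 0 1 k)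
          + K * Pi.single (M := fun _ => ℝ) k0 R k ^ 2) = R * g + K * R ^ 2 := by
        rw [Finset.sum_eq_single k0 (fun b _ hb => by simp [hb]) (fun hb => absurd (Finset.mem_univ _) hb)]
        simp [hg]
      rw [← e3]
      simp only [QvalK, ← hK, Pi.zero_apply, zero_mul, add_zero, mul_zero, zero_pow two_ne_zero,
        Finset.sum_add_distrib]
      ring
    rw [e1, e2] at this
    linarith
  have hp : 0 < δ - K := sub_pos.2 hlt
  obtain ⟨R, hR⟩ : ∃ R, R = (|g| + |c0|) / (δ - K) + 1 := ⟨_, rfl⟩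
  have hR1 : 1 ≤ R := by rw [hR]; exact le_add_of_nonneg_left (by positivity)
  have hmul : (δ - K) * R = |g| + |c0| + (δ - K) := by rw [hR]; field_simp
  have hm2 : ((δ - K) * R) * R = (|g| + |c0| + (δ - K)) * R := by rw [hmul]
  linarith [key R, mul_le_mul_of_nonneg_right (le_abs_self g) (zero_le_one.trans hR1),
    mul_le_mul_of_nonneg_left hR1 (abs_nonneg c0), mul_le_mul_of_nonneg_left hR1 hp.le,
    le_abs_self c0]

/-- The point conditions give some admissible normal form. -/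
theorem normal_point
    (x : Fin (n + 1) → ℝ) (A : Fin (n + 1) → Fin (n + 1) → ℝ) (v : Fin (n + 1) → ℝ) (w : ℝ)
    (hx : ∑ i, x i ^ 2 = 1) (hA : A ≠ 0) (hAs : ∀ i j, A i j = A j i) (hAt : ∑ i, A i i = 0)
    (hAx : ∀ j, ∑ i, x i * A i j = 0) (hv : ∑ i, v i ^ 2 ≤ 1) (hw : w = ∑ i, x i * v i)
    (hw0 : 0 ≤ w) :
    ∃ (U : Matrix (Fin (n + 1)) (Fin (n + 1)) ℝ) (σ : ℝ) (l v0 : Fin (n + 1) → ℝ)
      (τ : Fin (n + 1) → Fin (n + 1) → Fin (n + 1) → ℝ), Uᵀ * U = 1 ∧ 0 < σ ∧
      Admissible l v0 τ ∧ (jet0 l v0).1 ≠ 0 ∧ lam U σ (jet0 l v0) = (A, v, w) := by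
  have hAx' : ∀ j, ∑ i, x i * A j i = 0 := fun j => by
    rw [← hAx j]
    exact Finset.sum_congr rfl fun i _ => by rw [hAs j i]
  obtain ⟨U, σ, l, v0, τ, h1, h2, h3, h4, h5, -⟩ := normal_form x A v w
    (fun i j k => -(x i * A j k + x j * A i k + x k * A i j)) hx hA hAs hAt hAx hv hw hw0
    (fun i j k => by simp only [hAs k j]; ring) (fun i j k => by simp only [hAs j i]; ring)
    (fun j => by
      simp only [Finset.sum_neg_distrib, Finset.sum_add_distrib, ← Finset.mul_sum, hAt, mul_zero,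
        hAx', add_zero, neg_zero])
    (fun j k => by
      have e : ∀ i, x i * -(x i * A j k + x j * A i k + x k * A i j) =
          -(x i ^ 2 * A j k + x j * (x i * A i k) + x k * (x i * A i j)) := fun i => by ring
      simp only [e, Finset.sum_neg_distrib, Finset.sum_add_distrib, ← Finset.sum_mul,
        ← Finset.mul_sum, hx, hAx, mul_zero, add_zero, one_mul])
  exact ⟨U, σ, l, v0, τ, h1, h2, h3, h4, h5⟩

/-- **The certificate of a flux table and a density table.** -/
def mkCertK (h1 : 1 / 2 < al) (h2 : al < 1) (δ : ℝ) (hδ : 0 < δ)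
    (hQ : ∀ (l v : Fin (n + 1) → ℝ) (τ : Fin (n + 1) → Fin (n + 1) → Fin (n + 1) → ℝ)
      (y : Fin (n + 1) → ℝ) (a : ℝ), Admissible l v τ → 0 ≤ a →
      δ * (1 + ∑ k, y k ^ 2) ≤ QvalK al L L2 KL l v τ y a 1)
    (hB : ∀ h t3 t4, BoundaryRange n h t3 t4 →
      0 ≤ bVal L h t3 t4 + h ^ 2 * bVal L2 h t3 t4 + h * KVal KL h t3 ∧
        0 ≤ wVal L h t3 + h ^ 2 * wVal L2 h t3) :
    Cert (n + 1) where
  al := al
  half_lt := h1
  lt_one := h2
  δ := δ / ((KL.map fun t => |(t.c : ℝ)|).sum + 1)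
  δ_pos := div_pos hδ (add_pos_of_nonneg_of_pos (List.sum_nonneg fun a ha => by
    obtain ⟨t, -, rfl⟩ := List.mem_map.1 ha
    positivity) one_pos)
  K := Kt al KL
  om := omW' al L L2
  smooth_K := smooth_Kt al KL
  smooth_om := smooth_omW al L L2
  hom_K t ht j hj := hom_Kt al KL t ht hj
  hom_om t ht j q hj := hom_omW al L L2 (j := j) (q := q) t ht hj
  pos x A v w hx hA hAs hAt hAx hv hw hw0 := by
    obtain ⟨U, σ, l, v0, τ, hU, hσ, hAdm, hne0, hjet⟩ :=
      normal_point x A v w hx hA hAs hAt hAx hv hw hw0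
    rw [← hjet, Kt_lam al KL hU hσ hne0]
    exact mul_pos (Real.rpow_pos_of_pos hσ _)
      (hδ.trans_le (Kt_ge al L L2 KL n.succ_pos hQ hAdm))
  interior x A v w T hx hA hAs hAt hAx hv hw hw0 hT1 hT2 hT3 hT4 := by
    obtain ⟨U, σ, l, v0, τ, hU, hσ, hAdm, hne0, hjet, hdj, hl'⟩ :=
      normal_form x A v w T hx hA hAs hAt hAx hv hw hw0 hT1 hT2 hT3 hT4
    obtain ⟨q, hq⟩ : ∃ q : Fin (n + 1) → Jet (n + 1), ∀ m, qdir l v0 τ σ 1 m = q m :=
      ⟨_, fun m => rfl⟩
    simp only [hq] at hdj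
    obtain ⟨K, hKdef⟩ : ∃ K, K = Kt al KL (jet0 l v0) := ⟨_, rfl⟩
    have hKδ : δ ≤ K := hKdef ▸ Kt_ge al L L2 KL n.succ_pos hQ hAdm
    have hKp : 0 < K := hδ.trans_le hKδ
    have hc : 0 < σ ^ (2 * al) := Real.rpow_pos_of_pos hσ _
    have hom : ∑ k, fderiv ℝ (omW' al L L2) (A, v, w) (djet x A v T w k) (djet x A v T w k) =
        σ ^ (2 * al) * ∑ m, dOmW al L L2 (jet0 l v0) (q m) (q m) := by
      simp only [hdj]
      rw [sum_orth hU (fderiv ℝ (omW' al L L2) (A, v, w)) fun m => lam U σ (q m), Finset.mul_sum]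
      refine Finset.sum_congr rfl fun m _ => ?_
      rw [← hjet, fderiv_omW' al L L2 _ _ (lam_ne' hU hσ hne0), dOmW_lam al L L2 hU hσ hne0]
    have hgrad : ∑ k, fderiv ℝ (Kt al KL) ((A, v, w) : Jet (n + 1)) (djet x A v T w k) ^ 2 =
        (σ ^ (2 * al)) ^ 2 * ∑ m, dKt al KL (jet0 l v0) (q m) ^ 2 := by
      obtain ⟨G, hG⟩ : ∃ G : Jet (n + 1) →L[ℝ] ℝ, G = fderiv ℝ (Kt al KL) (A, v, w) := ⟨_, rfl⟩
      have := sum_orth hU (G.smulRight G) fun m => lam U σ (q m)
      simp only [ContinuousLinearMap.smulRight_apply, FunLike.coe_smul, Pi.smul_apply,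
        smul_eq_mul, ← sq] at this
      simp only [← hG, hdj, this, Finset.mul_sum]
      refine Finset.sum_congr rfl fun m _ => ?_
      rw [hG, ← hjet, fderiv_Kt al KL _ (lam_ne' hU hσ hne0), dKt_lam al KL hU hσ hne0]
      ring
    have hlap : omW' al L L2 ((A, v, w) : Jet (n + 1)) (ljet A w) =
        σ ^ (2 * al) * omW al L L2 (jet0 l v0) (ljet0 l v0) := by
      rw [omW'_apply, hl', ← hjet, omW_lam al L L2 hU hσ hne0]
    have hK : Kt al KL ((A, v, w) : Jet (n + 1)) = σ ^ (2 * al) * K := by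
      rw [← hjet, Kt_lam al KL hU hσ hne0, hKdef]
    obtain ⟨y, hy⟩ : ∃ y : Fin (n + 1) → ℝ, ∀ m, y m = -dKt al KL (jet0 l v0) (q m) / (2 * K) :=
      ⟨_, fun m => rfl⟩
    have h0 := hQ l v0 τ y σ hAdm hσ.le
    have hy2 : ∀ m, dOmW al L L2 (jet0 l v0) (q m) (q m) + y m * dKt al KL (jet0 l v0) (q m)
        + K * y m ^ 2 =
        dOmW al L L2 (jet0 l v0) (q m) (q m) - dKt al KL (jet0 l v0) (q m) ^ 2 / (4 * K) := fun m => by
      rw [hy]; field_simp; ring
    simp only [QvalK, hq, ← hKdef, hy2, Finset.sum_sub_distrib, ← Finset.sum_div, one_pow,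
      one_mul] at h0
    have hS : 0 ≤ (KL.map fun t => |(t.c : ℝ)|).sum := List.sum_nonneg fun a ha => by
      obtain ⟨t, -, rfl⟩ := List.mem_map.1 ha
      positivity
    have hM : δ / ((KL.map fun t => |(t.c : ℝ)|).sum + 1) * K ≤ δ := by
      rw [div_mul_eq_mul_div, div_le_iff₀ (by linarith)]
      refine mul_le_mul_of_nonneg_left ?_ hδ.le
      linarith [hKdef ▸ Kt_le al KL hAdm]
    have hyy : 0 ≤ δ * ∑ k, y k ^ 2 := mul_nonneg hδ.le (Finset.sum_nonneg fun k _ => sq_nonneg _)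
    have hmain := mul_le_mul_of_nonneg_left (show δ / ((KL.map fun t => |(t.c : ℝ)|).sum + 1) * K ≤
      ∑ m, dOmW al L L2 (jet0 l v0) (q m) (q m) - (∑ m, dKt al KL (jet0 l v0) (q m) ^ 2) / (4 * K)
        + (omW al L L2 (jet0 l v0) (ljet0 l v0) - ((((n + 1 : ℕ) : ℝ) - 2) / 2) ^ 2 * K) by linarith)
      hc.le
    rw [← Finset.sum_div, hgrad, hom, hlap, hK]
    rw [show (σ ^ (2 * al)) ^ 2 * (∑ m, dKt al KL (jet0 l v0) (q m) ^ 2) / (4 * (σ ^ (2 * al) * K)) =
      σ ^ (2 * al) * ((∑ m, dKt al KL (jet0 l v0) (q m) ^ 2) / (4 * K)) by field_simp]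
    linarith
  boundary x A v z H hx hA hAs hAt hAx hv hxv hAv hzv _ hH := by
    obtain ⟨σ, hσdef⟩ : ∃ σ, σ = Real.sqrt (sqA ((A, v, 0) : Jet (n + 1))) := ⟨_, rfl⟩
    have hσ : 0 < σ := hσdef ▸ Real.sqrt_pos.2 (sqA_pos (j := (A, v, 0)) hA)
    have hσ2 : σ ^ 2 = ∑ a, ∑ b, A a b ^ 2 := by
      rw [hσdef, Real.sq_sqrt (sqA_pos (j := (A, v, 0)) hA).le]; rfl
    obtain ⟨B, hB'⟩ : ∃ B : Fin (n + 1) → Fin (n + 1) → ℝ, ∀ i k, B i k = A i k / σ :=
      ⟨_, fun i k => rfl⟩
    obtain ⟨h, hh⟩ : ∃ h, h = H / σ := ⟨_, rfl⟩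
    obtain ⟨y, hy⟩ : ∃ y : Fin (n + 1) → ℝ, ∀ i, y i = z i / σ ^ 2 := ⟨_, fun i => rfl⟩
    have hv' : v ⬝ᵥ v = 1 := by simpa [dotProduct, sq] using hv
    have hBS : ∑ i, ∑ k, B i k ^ 2 = 1 := by
      simp only [hB', div_pow, ← Finset.sum_div]
      rw [hσ2]
      exact div_self (hσ2 ▸ pow_ne_zero 2 hσ.ne')
    have hBv : Matrix.of B *ᵥ v = (-h) • v := by
      funext i
      show ∑ k, B i k * v k = -h * v i
      simp only [hB', div_mul_eq_mul_div, ← Finset.sum_div, hAv, hh]
      ring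
    have hyv : y ⬝ᵥ v = 0 := by
      show ∑ i, y i * v i = 0
      simp only [hy, div_mul_eq_mul_div, ← Finset.sum_div, hzv, zero_div]
    have hBne : ((B, v, 0) : Jet (n + 1)).1 ≠ 0 := by
      intro e
      simp only at e
      simp [e] at hBS
    have hjet : ((A, v, 0) : Jet (n + 1)) = (σ • B, v, 0) := by
      refine Prod.ext ?_ rfl
      funext i k
      simp [hB', mul_div_cancel₀ _ hσ.ne']
    have hrange := range_of_boundary B x v h (hh ▸ div_nonneg hH hσ.le)
      (by simpa [dotProduct, sq] using hx) (fun i k => by rw [hB', hB', hAs])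
      (by simp only [hB', ← Finset.sum_div, hAt, zero_div])
      (by
        funext i
        show ∑ k, B i k * x k = 0
        simp only [hB', div_mul_eq_mul_div, ← Finset.sum_div]
        rw [Finset.sum_congr rfl fun k _ => show A i k * x k = x k * A k i by rw [hAs k i]; ring,
          hAx, zero_div])
      hBS hv' hxv hBv
    obtain ⟨hb1, hb2⟩ := hB _ _ _ hrange
    obtain ⟨e1, e2⟩ := omV_boundary al L B v y h (fun i k => by rw [hB', hB', hAs]) hBS hv' hBv hyv
    obtain ⟨f1, f2⟩ := omV_boundary (al - 1) L2 B v y h (fun i k => by rw [hB', hB', hAs]) hBS hv' hBv hyv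
    obtain ⟨Q, hQ'⟩ : ∃ Q : Jet (n + 1), Q =
        σ • ((fun j k => -(∑ l, B j l * B l k) - h * B j k + v j * v k + v j * y k + y j * v k,
          fun k => -h * v k, 0) : Jet (n + 1)) + (0, 0, 1) := ⟨_, rfl⟩
    have hq : ((fun j k => -(∑ l, A j l * A l k) - H * A j k + (∑ a, ∑ b, A a b ^ 2) * v j * v k
        + v j * z k + z j * v k, fun k => -H * v k, 1) : Jet (n + 1)) = (σ • Q.1, Q.2) := by
      refine Prod.ext ?_ (Prod.ext ?_ ?_)
      · funext j k
        rw [← hσ2]
        simp only [hQ', hB', hh, hy, Prod.fst_add, Prod.smul_fst, Pi.smul_apply,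
          smul_eq_mul, add_zero]
        rw [show ∑ l, A j l / σ * (A l k / σ) = (∑ l, A j l * A l k) / σ ^ 2 by
          rw [Finset.sum_div]; exact Finset.sum_congr rfl fun l _ => by field_simp]
        field_simp
      · funext k
        simp only [hQ', hh, Prod.snd_add, Prod.fst_add, Prod.smul_snd, Prod.smul_fst, Pi.add_apply,
          Pi.smul_apply, smul_eq_mul, Pi.zero_apply, add_zero]
        field_simp
      · simp [hQ']
    have hKB : Kt al KL ((B, v, 0) : Jet (n + 1)) = KVal KL h (t3 ((B, v, 0) : Jet (n + 1))) := by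
      have hs : sqA ((B, v, 0) : Jet (n + 1)) = 1 := hBS
      have h0 : p0 ((B, v, 0) : Jet (n + 1)) = 1 := by simpa [p0] using hv
      have h1' : p1 ((B, v, 0) : Jet (n + 1)) = -h := by
        rw [p1_eq]
        show v ⬝ᵥ (Matrix.of B *ᵥ v) = -h
        rw [hBv, dotProduct_smul, hv', smul_eq_mul, mul_one]
      have h2' : p2 ((B, v, 0) : Jet (n + 1)) = h ^ 2 := by
        show ∑ i, ((Matrix.of B *ᵥ v) i) ^ 2 = h ^ 2
        simp [hBv, mul_pow, ← Finset.mul_sum, hv]
      clear hB hQ hb1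
      induction KL with
      | nil => simp [Kt, KVal]
      | cons t KL ih =>
        simp only [Kt, KVal, List.map_cons, List.sum_cons] at ih ⊢
        rw [ih]
        simp [KTerm.val, KTerm.base, Term.mon, Term.bMon, hs, h0, h1', h2']
    have hp2 : p2 ((B, v, 0) : Jet (n + 1)) = h ^ 2 := by
      show ∑ i, ((Matrix.of B *ᵥ v) i) ^ 2 = h ^ 2
      simp [hBv, mul_pow, ← Finset.mul_sum, hv]
    rw [hq, hjet, hom_omW al L L2 (j := ((B, v, 0) : Jet (n + 1))) (q := Q) σ hσ hBne,
      hom_Kt (j := ((B, v, 0) : Jet (n + 1))) al KL σ hσ hBne, omW'_apply, omW, hp2, hQ', omV_add,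
      omV_smul, omV_add, omV_smul, e1, e2, f1, f2, hKB]
    have hc : 0 ≤ σ ^ (2 * al) := Real.rpow_nonneg hσ.le _
    have hHh : H = σ * h := by rw [hh, mul_div_cancel₀ _ hσ.ne']
    rw [hHh]
    have := mul_nonneg hc (add_nonneg (mul_nonneg hσ.le hb1) hb2)
    linarith

end Vale.Agent.P098.Exact
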