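import Vale.Agent.P098.Exact.Frame

/-! The interior inequality of a family member reduced to an explicit quadratic form at a diagonal
unit Hessian. -/

noncomputable section

namespace Vale.Agent.P098.Exact

open Matrix

variable {n : ℕ} (al : ℝ) (L : List Term)

/-- The normalised jet: diagonal Hessian with eigenvalues `l`, gradient `v`, value `v (last)`. -/
def jet0 (l v : Fin (n + 1) → ℝ) : Jet (n + 1) :=
  (fun i m => if i = m then l i else 0, v, v (Fin.last n))

/-- The part of the third derivative forced by homogeneity. -/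
def bord (l : Fin (n + 1) → ℝ) (k i m : Fin (n + 1)) : ℝ :=
  (if i = Fin.last n ∧ m = k then -l k else 0) + (if m = Fin.last n ∧ i = k then -l k else 0)

/-- The normalised jet derivative in direction `k`. -/
def qdir (l v : Fin (n + 1) → ℝ) (τ : Fin (n + 1) → Fin (n + 1) → Fin (n + 1) → ℝ) (a b : ℝ)
    (k : Fin (n + 1)) : Jet (n + 1) :=
  (fun i m => τ k i m + b * bord l k i m, fun m => if k = m then a * l k else 0,
    if k = Fin.last n then 0 else b * v k)

/-- The normalised Laplacian of the jet. -/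
def ljet0 (l v : Fin (n + 1) → ℝ) : Jet (n + 1) :=
  (fun i m => if i = m then ((((n + 1 : ℕ) : ℝ) - 3) * l i) else 0, 0,
    -((((n + 1 : ℕ) : ℝ) - 1) * v (Fin.last n)))

/-- The interior quadratic form in `(τ, a, b)`. -/
def Qval (l v : Fin (n + 1) → ℝ) (τ : Fin (n + 1) → Fin (n + 1) → Fin (n + 1) → ℝ) (a b : ℝ) :
    ℝ :=
  ∑ k, (dOmV al L (jet0 l v) (qdir l v τ a b k) (qdir l v τ a b k)
      - (al * dsqA (jet0 l v) (qdir l v τ a b k)) ^ 2 / 4)
    + b ^ 2 * (omV al L (jet0 l v) (ljet0 l v) - ((((n + 1 : ℕ) : ℝ) - 2) / 2) ^ 2)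

/-- The hypotheses on the variables of the interior form. -/
structure Admissible (l v : Fin (n + 1) → ℝ)
    (τ : Fin (n + 1) → Fin (n + 1) → Fin (n + 1) → ℝ) : Prop where
  l_last : l (Fin.last n) = 0
  l_sum : ∑ i, l i = 0
  l_sq : ∑ i, l i ^ 2 = 1
  v_sq : ∑ i, v i ^ 2 ≤ 1
  v_last : 0 ≤ v (Fin.last n)
  tau_right : ∀ i k m, τ i k m = τ i m k
  tau_left : ∀ i k m, τ i k m = τ k i m
  tau_trace : ∀ k, ∑ i, τ k i i = 0
  tau_last : ∀ k m, τ (Fin.last n) k m = 0

/-- The bilinear derivative of the flux. -/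
theorem dOm_bilin (j : Jet (n + 1)) (hj : j.1 ≠ 0) (h q : Jet (n + 1)) :
    fderiv ℝ (omCLM al L) j h q = dOmV al L j h q :=
  fderiv_omCLM j h q al L hj

/-- **Reduction of the interior inequality.** -/
theorem interior_of_Qval {δ : ℝ}
    (hQ : ∀ (l v : Fin (n + 1) → ℝ) (τ : Fin (n + 1) → Fin (n + 1) → Fin (n + 1) → ℝ) (a : ℝ),
      Admissible l v τ → 0 ≤ a → δ ≤ Qval al L l v τ a 1)
    (x : Fin (n + 1) → ℝ) (A : Fin (n + 1) → Fin (n + 1) → ℝ) (v : Fin (n + 1) → ℝ) (w : ℝ)
    (T : Fin (n + 1) → Fin (n + 1) → Fin (n + 1) → ℝ)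
    (hx : ∑ i, x i ^ 2 = 1) (hA : A ≠ 0) (hAs : ∀ i j, A i j = A j i) (hAt : ∑ i, A i i = 0)
    (hAx : ∀ j, ∑ i, x i * A i j = 0) (hv : ∑ i, v i ^ 2 ≤ 1) (hw : w = ∑ i, x i * v i)
    (hw0 : 0 ≤ w) (hT1 : ∀ i j k, T i j k = T i k j) (hT2 : ∀ i j k, T i j k = T j i k)
    (hT3 : ∀ j, ∑ i, T j i i = 0) (hT4 : ∀ j k, ∑ i, x i * T i j k = -A j k) :
    ∑ k, fderiv ℝ (Kf al) (A, v, w) (djet x A v T w k) ^ 2 / (4 * Kf al (A, v, w))
        + ((((n + 1 : ℕ) : ℝ) - 2) / 2) ^ 2 * Kf al (A, v, w) + δ * Kf al (A, v, w)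
      ≤ ∑ k, fderiv ℝ (omCLM al L) (A, v, w) (djet x A v T w k) (djet x A v T w k)
        + omCLM al L (A, v, w) (ljet A w) := by
  classical
  have hxd : x ⬝ᵥ x = 1 := by simpa [dotProduct, sq] using hx
  have hAxd : (Matrix.of A) *ᵥ x = 0 := by
    funext i
    rw [Pi.zero_apply, ← hAx i]
    show ∑ k, A i k * x k = _
    exact Finset.sum_congr rfl fun k _ => by rw [hAs k i, mul_comm]
  obtain ⟨U, l1, hU, hU', hUx, hl1, hdiag⟩ := exists_frame (Matrix.of A) hAs x hxd hAxd
  obtain ⟨σ, hσdef⟩ : ∃ σ, σ = Real.sqrt (sqA ((A, v, w) : Jet (n + 1))) := ⟨_, rfl⟩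
  have hσ : 0 < σ := hσdef ▸ Real.sqrt_pos.2 (sqA_pos (j := (A, v, w)) hA)
  have hσ2 : σ ^ 2 = sqA ((A, v, w) : Jet (n + 1)) := by
    rw [hσdef, Real.sq_sqrt (sqA_pos (j := (A, v, w)) hA).le]
  obtain ⟨l, hl⟩ : ∃ l : Fin (n + 1) → ℝ, ∀ i, l i = l1 i / σ := ⟨_, fun i => rfl⟩
  obtain ⟨v0, hv0⟩ : ∃ v0 : Fin (n + 1) → ℝ, v0 = Uᵀ *ᵥ v := ⟨_, rfl⟩
  have hv0last : v0 (Fin.last n) = w := by
    rw [hv0, hw]
    show ∑ i, U i (Fin.last n) * v i = _
    exact Finset.sum_congr rfl fun i _ => by rw [hUx]
  have hAeq : Matrix.of A = U * Matrix.diagonal l1 * Uᵀ := by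
    rw [← hdiag, Matrix.mul_assoc, hU', Matrix.mul_one]
  have hjet : lam U σ (jet0 l v0) = (A, v, w) := by
    refine Prod.ext ?_ (Prod.ext ?_ ?_)
    · funext i k
      have hm : mat (jet0 l v0) = σ⁻¹ • Matrix.diagonal l1 := by
        ext a b
        by_cases h : a = b <;> simp [mat, jet0, h, hl, div_eq_inv_mul]
      show σ * (U * mat (jet0 l v0) * Uᵀ) i k = A i k
      rw [hm, Matrix.mul_smul, Matrix.smul_mul, ← hAeq, Matrix.smul_apply, smul_eq_mul,
        ← mul_assoc, mul_inv_cancel₀ hσ.ne', one_mul, Matrix.of_apply]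
    · show U *ᵥ v0 = v
      rw [hv0, Matrix.mulVec_mulVec, hU', Matrix.one_mulVec]
    · exact hv0last
  have hne0 : (jet0 l v0).1 ≠ 0 := by
    intro h
    apply hA
    have := congrArg Prod.fst hjet
    simp only at this
    rw [← this]
    funext i k
    have hm : mat (jet0 l v0) = 0 := by ext a b; exact congrFun (congrFun h a) b
    simp [lam, hm]
  have hs1 : sqA (jet0 l v0) = 1 := by
    have h := sqA_smul (lam U 1 (jet0 l v0)) σ
    rw [← lam_eq, hjet, sqA_orth hU, ← hσ2] at h
    have := mul_left_cancel₀ (pow_ne_zero 2 hσ.ne') (h.symm.trans (mul_one (σ ^ 2)).symm)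
    exact this
  -- the rotated third derivative
  obtain ⟨W, hW⟩ : ∃ W : Fin (n + 1) → Fin (n + 1) → Fin (n + 1) → ℝ, ∀ m a c,
      W m a c = σ⁻¹ * ∑ k, ∑ i, ∑ j, U k m * U i a * U j c * T k i j := ⟨_, fun m a c => rfl⟩
  have hW1 : ∀ m a c, W m a c = W m c a := by
    intro m a c
    rw [hW, hW]
    congr 1
    refine Finset.sum_congr rfl fun k _ => ?_
    rw [Finset.sum_comm]
    exact Finset.sum_congr rfl fun i _ => Finset.sum_congr rfl fun j _ => by rw [hT1 k j i]; ring
  have hW2 : ∀ m a c, W m a c = W a m c := by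
    intro m a c
    rw [hW, hW, Finset.sum_comm]
    congr 1
    exact Finset.sum_congr rfl fun i _ => Finset.sum_congr rfl fun k _ =>
      Finset.sum_congr rfl fun j _ => by rw [hT2 k i j]; ring
  have horth : ∀ a b, ∑ i, U i a * U i b = if a = b then (1 : ℝ) else 0 := by
    intro a b
    have := congrFun (congrFun hU a) b
    simpa [Matrix.mul_apply, Matrix.one_apply] using this
  have horth' : ∀ i j, ∑ a, U i a * U j a = if i = j then (1 : ℝ) else 0 := by
    intro i j
    have := congrFun (congrFun hU' i) j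
    simpa [Matrix.mul_apply, Matrix.one_apply] using this
  have hW3 : ∀ m, ∑ a, W m a a = 0 := by
    intro m
    simp only [hW, ← Finset.mul_sum]
    rw [Finset.sum_comm, Finset.sum_eq_zero, mul_zero]
    intro k _
    rw [Finset.sum_comm]
    calc ∑ i, ∑ a, ∑ j, U k m * U i a * U j a * T k i j
        = U k m * ∑ i, ∑ j, (∑ a, U i a * U j a) * T k i j := by
          rw [Finset.mul_sum]
          refine Finset.sum_congr rfl fun i _ => ?_
          rw [Finset.sum_comm, Finset.mul_sum]
          refine Finset.sum_congr rfl fun j _ => ?_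
          rw [Finset.sum_mul, Finset.mul_sum]
          exact Finset.sum_congr rfl fun a _ => by ring
      _ = U k m * ∑ i, T k i i := by simp [horth', ite_mul]
      _ = 0 := by rw [hT3, mul_zero]
  have hconj : ∀ a c, ∑ i, ∑ j, U i a * U j c * A i j = if a = c then l1 a else 0 := by
    intro a c
    have h : Uᵀ * Matrix.of A * U = Matrix.diagonal l1 := by
      rw [Matrix.mul_assoc, hdiag, ← Matrix.mul_assoc, hU, Matrix.one_mul]
    have h' := congrFun (congrFun h a) c
    rw [Matrix.diagonal_apply] at h'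
    rw [← h', Matrix.mul_apply, Finset.sum_comm]
    simp only [Matrix.mul_apply, Matrix.transpose_apply, Matrix.of_apply, Finset.sum_mul]
    exact Finset.sum_congr rfl fun j _ => Finset.sum_congr rfl fun i _ => by ring
  have hW4 : ∀ a c, W (Fin.last n) a c = if a = c then -l a else 0 := by
    intro a c
    rw [hW, hl]
    have : ∑ k, ∑ i, ∑ j, U k (Fin.last n) * U i a * U j c * T k i j =
        -∑ i, ∑ j, U i a * U j c * A i j := by
      rw [Finset.sum_comm, ← Finset.sum_neg_distrib]
      refine Finset.sum_congr rfl fun i _ => ?_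
      rw [Finset.sum_comm, ← Finset.sum_neg_distrib]
      refine Finset.sum_congr rfl fun j _ => ?_
      rw [← mul_neg, ← hT4 i j, Finset.mul_sum]
      exact Finset.sum_congr rfl fun k _ => by rw [hUx]; ring
    rw [this, hconj]
    split <;> simp [div_eq_inv_mul]
  obtain ⟨τ, hτ⟩ : ∃ τ : Fin (n + 1) → Fin (n + 1) → Fin (n + 1) → ℝ, ∀ m a c, τ m a c =
      if m = Fin.last n ∨ a = Fin.last n ∨ c = Fin.last n then 0 else W m a c :=
    ⟨_, fun m a c => rfl⟩
  have hll : l (Fin.last n) = 0 := by rw [hl, hl1, zero_div]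
  have hWτ : ∀ m a c, m ≠ Fin.last n → W m a c = τ m a c + bord l m a c := by
    intro m a c hm
    rw [hτ, bord]
    by_cases ha : a = Fin.last n
    · subst ha
      rw [if_pos (Or.inr (Or.inl rfl)), hW2, hW4, zero_add]
      by_cases hc : c = Fin.last n
      · subst hc
        simp [hm, Ne.symm hm]
      · by_cases hcm : c = m
        · simp [hcm, hm]
        · simp [hc, hcm, show ¬ m = c from Ne.symm hcm]
    · by_cases hc : c = Fin.last n
      · subst hc
        rw [if_pos (Or.inr (Or.inr rfl)), hW1, hW2, hW4, zero_add]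
        by_cases ham : a = m <;> simp [ha, ham, Ne.symm (a := a) (b := m), hm, Ne.symm hm]
      · simp [ha, hc, hm]
  have hvd : ∀ a, v0 a = ∑ i, U i a * v i := fun a => by rw [hv0]; rfl
  have hAdm : Admissible l v0 τ := by
    refine ⟨hll, ?_, ?_, ?_, ?_, ?_, ?_, ?_, ?_⟩
    · have h : (Uᵀ * Matrix.of A * U).trace = (Matrix.of A).trace := by
        rw [Matrix.trace_mul_comm, ← Matrix.mul_assoc, hU', Matrix.one_mul]
      rw [Matrix.mul_assoc, hdiag, ← Matrix.mul_assoc, hU, Matrix.one_mul, Matrix.trace_diagonal,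
        show (Matrix.of A).trace = ∑ i, A i i from rfl, hAt] at h
      simp only [hl, ← Finset.sum_div, h, zero_div]
    · rw [← hs1]
      simp [sqA, jet0]
    · rw [show ∑ i, v0 i ^ 2 = v0 ⬝ᵥ v0 by simp [dotProduct, sq], ← dot_mulVec_orth hU,
        show U *ᵥ v0 = v by rw [hv0, Matrix.mulVec_mulVec, hU', Matrix.one_mulVec]]
      simpa [dotProduct, sq] using hv
    · rw [hv0last]; exact hw0
    · intro i k m
      rw [hτ, hτ, hW1 i k m]
      simp only [or_comm (a := k = Fin.last n)]
    · intro i k m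
      rw [hτ, hτ, hW2 i k m]
      simp only [or_left_comm (a := i = Fin.last n)]
    · intro k
      by_cases hk : k = Fin.last n
      · exact Finset.sum_eq_zero fun i _ => by rw [hτ, if_pos (Or.inl hk)]
      · rw [← hW3 k, Finset.sum_congr rfl fun i _ => hWτ k i i hk, Finset.sum_add_distrib,
          left_eq_add]
        refine Finset.sum_eq_zero fun i _ => ?_
        rw [bord]
        by_cases hi : i = k <;> simp [hi, hk]
    · intro k m
      rw [hτ, if_pos (Or.inl rfl)]
  -- the jet derivatives are the rotated normalised directions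
  obtain ⟨q, hq⟩ : ∃ q : Fin (n + 1) → Jet (n + 1), ∀ m, qdir l v0 τ σ 1 m = q m :=
    ⟨_, fun m => rfl⟩
  have hq1 : ∀ m, mat (q m) = Matrix.of fun a c => if m = Fin.last n then 0 else W m a c := by
    intro m
    ext a c
    rw [← hq]
    by_cases hm : m = Fin.last n
    · subst hm
      simp [mat, qdir, hτ, bord, hll]
    · simp [mat, qdir, hm, hWτ m a c hm]
  have hdj : ∀ k, djet x A v T w k = ∑ m, U k m • lam U σ (q m) := by
    intro k
    refine Prod.ext ?_ (Prod.ext ?_ ?_)
    · funext i j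
      simp only [djet, Prod.fst_sum, Finset.sum_apply, Prod.smul_fst, Pi.smul_apply, smul_eq_mul,
        lam, hq1, Matrix.mul_apply, Matrix.of_apply, Matrix.transpose_apply, Finset.mul_sum,
        Finset.sum_mul]
      have hWexp : ∀ m, ∀ a c, σ * W m a c =
          ∑ k, ∑ i, ∑ j, U k m * U i a * U j c * T k i j := fun m a c => by
        rw [hW, ← mul_assoc, mul_inv_cancel₀ hσ.ne', one_mul]
      have hAexp : A i j = ∑ c, ∑ a, U i a * (if a = c then l1 a else 0) * U j c := by
        have := congrFun (congrFun hAeq i) j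
        rw [Matrix.of_apply] at this
        rw [this, Matrix.mul_apply]
        simp [Matrix.mul_apply, Matrix.diagonal_apply]
      have hTexp : T k i j = ∑ m, ∑ c, ∑ a, U k m * (σ * (U i a * W m a c * U j c)) := by
        symm
        calc ∑ m, ∑ c, ∑ a, U k m * (σ * (U i a * W m a c * U j c))
            = ∑ m, ∑ c, ∑ a, ∑ k', ∑ i', ∑ j',
                (U k m * U k' m) * (U i a * U i' a) * (U j c * U j' c) * T k' i' j' := by
              refine Finset.sum_congr rfl fun m _ => Finset.sum_congr rfl fun c _ =>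
                Finset.sum_congr rfl fun a _ => ?_
              rw [show U k m * (σ * (U i a * W m a c * U j c)) =
                U k m * U i a * U j c * (σ * W m a c) by ring, hWexp, Finset.mul_sum]
              refine Finset.sum_congr rfl fun k' _ => ?_
              rw [Finset.mul_sum]
              refine Finset.sum_congr rfl fun i' _ => ?_
              rw [Finset.mul_sum]
              exact Finset.sum_congr rfl fun j' _ => by ring
          _ = ∑ k', ∑ i', ∑ j', (∑ m, U k m * U k' m) * (∑ a, U i a * U i' a) *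
                (∑ c, U j c * U j' c) * T k' i' j' := by
              rw [Finset.sum_congr rfl fun m _ => Finset.sum_congr rfl fun c _ => Finset.sum_comm,
                Finset.sum_congr rfl fun m _ => Finset.sum_comm, Finset.sum_comm]
              refine Finset.sum_congr rfl fun k' _ => ?_
              rw [Finset.sum_congr rfl fun m _ => Finset.sum_congr rfl fun c _ => Finset.sum_comm,
                Finset.sum_congr rfl fun m _ => Finset.sum_comm, Finset.sum_comm]
              refine Finset.sum_congr rfl fun i' _ => ?_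
              rw [Finset.sum_congr rfl fun m _ => Finset.sum_congr rfl fun c _ => Finset.sum_comm,
                Finset.sum_congr rfl fun m _ => Finset.sum_comm, Finset.sum_comm]
              refine Finset.sum_congr rfl fun j' _ => ?_
              simp only [Finset.sum_mul, Finset.mul_sum]
              rw [Finset.sum_comm]
              exact Finset.sum_congr rfl fun c _ => Finset.sum_comm
          _ = T k i j := by simp [horth', ite_mul]
      rw [hTexp, hAexp, Finset.mul_sum]
      have hlast : ∀ m, ∑ c, ∑ a, U k m *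
          (σ * (U i a * (if m = Fin.last n then 0 else W m a c) * U j c)) =
          (∑ c, ∑ a, U k m * (σ * (U i a * W m a c * U j c))) +
            if m = Fin.last n then x k * ∑ c, ∑ a, U i a * (if a = c then l1 a else 0) * U j c
            else 0 := by
        intro m
        by_cases hm : m = Fin.last n
        · subst hm
          simp only [if_true, mul_zero, zero_mul, Finset.sum_const_zero, Finset.mul_sum,
            ← Finset.sum_add_distrib]
          refine (Finset.sum_eq_zero fun c _ => Finset.sum_eq_zero fun a _ => ?_).symm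
          rw [hW4, hUx]
          by_cases hac : a = c
          · rw [if_pos hac, if_pos hac, hl]
            field_simp
            ring
          · simp [hac]
        · simp [hm]
      rw [Finset.sum_congr rfl fun m _ => hlast m, Finset.sum_add_distrib, Finset.sum_ite_eq',
        if_pos (Finset.mem_univ _), Finset.mul_sum]
      ring
    · funext j
      simp only [djet, Prod.snd_sum, Prod.fst_sum, Prod.smul_snd, Prod.smul_fst, Finset.sum_apply,
        Pi.smul_apply, smul_eq_mul, lam, ← hq, qdir, Matrix.mulVec, dotProduct, mul_ite, mul_zero,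
        Finset.sum_ite_eq, Finset.mem_univ, if_true]
      have := congrFun (congrFun hAeq k) j
      rw [Matrix.of_apply, Matrix.mul_apply] at this
      rw [this]
      refine Finset.sum_congr rfl fun m _ => ?_
      rw [Matrix.mul_diagonal, Matrix.transpose_apply, hl]
      field_simp
    · simp only [djet, Prod.snd_sum, Prod.smul_snd, smul_eq_mul, lam, ← hq, qdir, one_mul, mul_ite,
        mul_zero]
      have hsum : ∑ m, U k m * v0 m = v k := by
        have := congrFun (show U *ᵥ v0 = v by rw [hv0, Matrix.mulVec_mulVec, hU',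
          Matrix.one_mulVec]) k
        exact this
      rw [← hsum, Finset.sum_ite, Finset.sum_const_zero, zero_add,
        ← Finset.sum_filter_add_sum_filter_not Finset.univ (fun m => m = Fin.last n),
        Finset.filter_eq' Finset.univ (Fin.last n), if_pos (Finset.mem_univ _),
        Finset.sum_singleton, hv0last, hUx]
      ring
  have hl' : ljet A w = lam U σ (ljet0 l v0) := by
    refine Prod.ext ?_ (Prod.ext ?_ ?_)
    · funext i k
      have hm : mat (ljet0 l v0) =
          ((((n + 1 : ℕ) : ℝ) - 3) / σ) • Matrix.diagonal l1 := by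
        ext a b
        by_cases h : a = b <;> simp [mat, ljet0, h, hl]
        field_simp
      show _ = σ * (U * mat (ljet0 l v0) * Uᵀ) i k
      rw [hm, Matrix.mul_smul, Matrix.smul_mul, ← hAeq, Matrix.smul_apply, smul_eq_mul,
        ← mul_assoc, mul_div_cancel₀ _ hσ.ne', Matrix.of_apply]
      simp [ljet]
    · simp [ljet, lam, ljet0]
    · simp [ljet, lam, ljet0, hv0last]
  have hK : Kf al ((A, v, w) : Jet (n + 1)) = σ ^ (2 * al) := by
    rw [← hjet, Kf_lam hU al hσ hne0, Kf, hs1, Real.one_rpow, mul_one]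
  have hc : 0 < σ ^ (2 * al) := Real.rpow_pos_of_pos hσ _
  have hom : ∑ k, fderiv ℝ (omCLM al L) (A, v, w) (djet x A v T w k) (djet x A v T w k) =
      σ ^ (2 * al) * ∑ m, dOmV al L (jet0 l v0) (q m) (q m) := by
    simp only [hdj]
    rw [sum_orth hU (fderiv ℝ (omCLM al L) (A, v, w)) fun m => lam U σ (q m), Finset.mul_sum]
    refine Finset.sum_congr rfl fun m _ => ?_
    rw [← hjet, dOm_bilin al L _ (lam_ne' hU hσ hne0), dOmV_lam hU al L hσ hne0]
  have hgrad : ∑ k, fderiv ℝ (Kf al) ((A, v, w) : Jet (n + 1)) (djet x A v T w k) ^ 2 =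
      (σ ^ (2 * al)) ^ 2 * ∑ m, (al * dsqA (jet0 l v0) (q m)) ^ 2 := by
    obtain ⟨F, hF⟩ : ∃ F : Jet (n + 1) →L[ℝ] ℝ, F = fderiv ℝ (Kf al) (A, v, w) := ⟨_, rfl⟩
    have := sum_orth hU (F.smulRight F) fun m => lam U σ (q m)
    simp only [ContinuousLinearMap.smulRight_apply, ContinuousLinearMap.coe_smul', Pi.smul_apply,
      smul_eq_mul, ← sq] at this
    simp only [← hF, hdj, this, Finset.mul_sum]
    refine Finset.sum_congr rfl fun m _ => ?_
    rw [hF, ← hjet, dKf_lam hU al hσ hne0, fderiv_Kf _ _ _ hne0, hs1, Real.one_rpow]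
    ring
  have hlap : omCLM al L ((A, v, w) : Jet (n + 1)) (ljet A w) =
      σ ^ (2 * al) * omV al L (jet0 l v0) (ljet0 l v0) := by
    rw [omCLM_apply, hl', ← hjet, omV_lam hU al L hσ hne0]
  have hmain := mul_le_mul_of_nonneg_left (hQ l v0 τ σ hAdm hσ.le) hc.le
  simp only [Qval, hq, Finset.sum_sub_distrib, ← Finset.sum_div, one_pow, one_mul] at hmain
  rw [← Finset.sum_div, hgrad, hom, hlap, hK]
  rw [show (σ ^ (2 * al)) ^ 2 * (∑ m, (al * dsqA (jet0 l v0) (q m)) ^ 2) / (4 * σ ^ (2 * al)) =
    σ ^ (2 * al) * ((∑ m, (al * dsqA (jet0 l v0) (q m)) ^ 2) / 4) by field_simp]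
  linarith

end Vale.Agent.P098.Exact
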