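import Vale.Agent.P098.Exact.Reduce

/-! A certificate one dimension up restricts along the embedding of jets by zero padding. -/

noncomputable section

namespace Vale.Agent.P098.Exact

open scoped ContDiff

variable {d : ℕ}

/-- Vector padded by a zero. -/
def padV (v : Fin d → ℝ) : Fin (d + 1) → ℝ := Fin.lastCases 0 v

/-- Matrix padded by zeros. -/
def padM (A : Fin d → Fin d → ℝ) : Fin (d + 1) → Fin (d + 1) → ℝ :=
  fun i k => padV (fun i' => padV (A i') k) i

/-- Three index array padded by zeros. -/
def padT (T : Fin d → Fin d → Fin d → ℝ) : Fin (d + 1) → Fin (d + 1) → Fin (d + 1) → ℝ :=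
  fun i k m => padV (fun i' => padM (T i') k m) i

theorem padV_cast (v : Fin d → ℝ) (i : Fin d) : padV v i.castSucc = v i := by simp [padV]

theorem padV_last (v : Fin d → ℝ) : padV v (Fin.last d) = 0 := by simp [padV]

theorem padM_cast (A : Fin d → Fin d → ℝ) (i k : Fin d) :
    padM A i.castSucc k.castSucc = A i k := by simp [padM, padV]

theorem padM_last (A : Fin d → Fin d → ℝ) (k : Fin (d + 1)) : padM A (Fin.last d) k = 0 := by
  simp [padM, padV]

theorem padM_last' (A : Fin d → Fin d → ℝ) (i : Fin (d + 1)) : padM A i (Fin.last d) = 0 := by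
  refine Fin.lastCases ?_ (fun i' => ?_) i <;> simp [padM, padV]

theorem padT_cast (T : Fin d → Fin d → Fin d → ℝ) (i k m : Fin d) :
    padT T i.castSucc k.castSucc m.castSucc = T i k m := by simp [padT, padM, padV]

theorem padT_last (T : Fin d → Fin d → Fin d → ℝ) (k m : Fin (d + 1)) :
    padT T (Fin.last d) k m = 0 := by simp [padT, padV]

theorem padT_last' (T : Fin d → Fin d → Fin d → ℝ) (i m : Fin (d + 1)) :
    padT T i (Fin.last d) m = 0 := by
  refine Fin.lastCases ?_ (fun i' => ?_) i <;> simp [padT, padM, padV]

theorem padT_last'' (T : Fin d → Fin d → Fin d → ℝ) (i k : Fin (d + 1)) :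
    padT T i k (Fin.last d) = 0 := by
  refine Fin.lastCases ?_ (fun i' => ?_) i
  · simp [padT, padV]
  · show padV (fun i'' => padM (T i'') k (Fin.last d)) i'.castSucc = 0
    rw [padV_cast, padM_last']

/-- The embedding of jets. -/
def emb : Jet d →L[ℝ] Jet (d + 1) :=
  LinearMap.toContinuousLinearMap
    { toFun := fun j => (padM j.1, padV j.2.1, j.2.2)
      map_add' := fun j q => by
        refine Prod.ext ?_ (Prod.ext ?_ rfl)
        · funext i k
          refine Fin.lastCases ?_ (fun i' => ?_) i
          · simp [padM_last]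
          · refine Fin.lastCases ?_ (fun k' => ?_) k <;> simp [padM_last', padM_cast]
        · funext i
          refine Fin.lastCases ?_ (fun i' => ?_) i <;> simp [padV_last, padV_cast]
      map_smul' := fun a j => by
        refine Prod.ext ?_ (Prod.ext ?_ rfl)
        · funext i k
          refine Fin.lastCases ?_ (fun i' => ?_) i
          · simp [padM_last]
          · refine Fin.lastCases ?_ (fun k' => ?_) k <;> simp [padM_last', padM_cast]
        · funext i
          refine Fin.lastCases ?_ (fun i' => ?_) i <;> simp [padV_last, padV_cast] }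

theorem emb_apply (j : Jet d) : emb j = (padM j.1, padV j.2.1, j.2.2) := rfl

theorem emb_ne {j : Jet d} (h : j.1 ≠ 0) : (emb j).1 ≠ 0 := by
  intro e
  apply h
  funext i k
  have := congrFun (congrFun e i.castSucc) k.castSucc
  simpa [emb_apply, padM_cast] using this

theorem emb_smulA (t : ℝ) (j : Jet d) : emb ((t • j.1, j.2) : Jet d) = (t • (emb j).1, (emb j).2) := by
  refine Prod.ext ?_ rfl
  funext i k
  refine Fin.lastCases ?_ (fun i' => ?_) i
  · simp [emb_apply, padM_last]
  · refine Fin.lastCases ?_ (fun k' => ?_) k <;> simp [emb_apply, padM_last', padM_cast]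

theorem djet_pad (x : Fin d → ℝ) (A : Fin d → Fin d → ℝ) (v : Fin d → ℝ)
    (T : Fin d → Fin d → Fin d → ℝ) (w : ℝ) (k : Fin d) :
    djet (padV x) (padM A) (padV v) (padT T) w k.castSucc = emb (djet x A v T w k) := by
  refine Prod.ext ?_ (Prod.ext ?_ ?_)
  · funext i m
    refine Fin.lastCases ?_ (fun i' => ?_) i
    · simp [djet, emb_apply, padM_last, padT_last']
    · refine Fin.lastCases ?_ (fun m' => ?_) m <;>
        simp [djet, emb_apply, padM_last', padM_cast, padT_last'', padT_cast, padV_cast]
  · funext i
    refine Fin.lastCases ?_ (fun i' => ?_) i <;>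
      simp [djet, emb_apply, padM_last', padM_cast, padV_cast, padV_last]
  · simp [djet, emb_apply, padV_cast]

theorem djet_pad_last (x : Fin d → ℝ) (A : Fin d → Fin d → ℝ) (v : Fin d → ℝ)
    (T : Fin d → Fin d → Fin d → ℝ) (w : ℝ) :
    djet (padV x) (padM A) (padV v) (padT T) w (Fin.last d) = 0 := by
  refine Prod.ext ?_ (Prod.ext ?_ ?_)
  · funext i m
    simp [djet, padV_last, padT_last]
  · funext i
    simp [djet, padM_last]
  · simp [djet, padV_last]

theorem ljet_pad (A : Fin d → Fin d → ℝ) (v : Fin d → ℝ) (w : ℝ) :
    ljet (padM A) w = emb (ljet A w) + emb ((A, 0, -w) : Jet d) := by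
  rw [← map_add]
  refine Prod.ext ?_ (Prod.ext ?_ ?_)
  · funext i k
    refine Fin.lastCases ?_ (fun i' => ?_) i
    · simp [ljet, emb_apply, padM_last]
    · refine Fin.lastCases ?_ (fun k' => ?_) k
      · simp [ljet, emb_apply, padM_last']
      · simp [ljet, emb_apply, padM_cast]
        ring
  · funext i
    refine Fin.lastCases ?_ (fun i' => ?_) i <;> simp [ljet, emb_apply, padV_cast, padV_last]
  · simp [ljet, emb_apply]
    ring

/-- **Restriction of a certificate.** -/
def restrict (Γ : Cert (d + 1))
    (hE : ∀ (x : Fin d → ℝ) (A : Fin d → Fin d → ℝ) (v : Fin d → ℝ) (w : ℝ),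
      ∑ i, x i ^ 2 = 1 → A ≠ 0 → (∀ i j, A i j = A j i) → ∑ i, A i i = 0 →
      (∀ j, ∑ i, x i * A i j = 0) → ∑ i, v i ^ 2 ≤ 1 → w = ∑ i, x i * v i → 0 ≤ w →
      Γ.om (emb (A, v, w)) (emb (A, 0, -w)) ≤
        ((((d : ℝ) - 1) / 2) ^ 2 - (((d : ℝ) - 2) / 2) ^ 2) * Γ.K (emb (A, v, w))) :
    Cert d where
  al := Γ.al
  half_lt := Γ.half_lt
  lt_one := Γ.lt_one
  δ := Γ.δ
  δ_pos := Γ.δ_pos
  K j := Γ.K (emb j)
  om j := (Γ.om (emb j)).comp emb
  smooth_K := Γ.smooth_K.comp emb.contDiff.contDiffOn fun _ h => emb_ne h
  smooth_om := (Γ.smooth_om.comp emb.contDiff.contDiffOn fun _ h => emb_ne h).clm_comp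
    contDiffOn_const
  hom_K t ht j hj := by rw [emb_smulA, Γ.hom_K t ht _ (emb_ne hj)]
  hom_om t ht j q hj := by
    simp only [ContinuousLinearMap.comp_apply]
    rw [emb_smulA, emb_smulA, Γ.hom_om t ht _ _ (emb_ne hj)]
  pos x A v w hx hA hAs hAt hAx hv hw hw0 := by
    have key := Γ.pos (padV x) (padM A) (padV v) w
      (by simpa [Fin.sum_univ_castSucc, padV_cast, padV_last] using hx)
      (emb_ne (j := (A, v, w)) hA)
      (fun i k => by
        refine Fin.lastCases ?_ (fun i' => ?_) i
        · simp [padM_last, padM_last']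
        · refine Fin.lastCases ?_ (fun k' => ?_) k <;> simp [padM_last, padM_last', padM_cast, hAs])
      (by simpa [Fin.sum_univ_castSucc, padM_cast, padM_last] using hAt)
      (fun j => by
        refine Fin.lastCases ?_ (fun j' => ?_) j
        · simp [padM_last']
        · simpa [Fin.sum_univ_castSucc, padV_cast, padV_last, padM_cast] using hAx j')
      (by simpa [Fin.sum_univ_castSucc, padV_cast, padV_last] using hv)
      (by simpa [Fin.sum_univ_castSucc, padV_cast, padV_last] using hw) hw0
    exact key
  interior x A v w T hx hA hAs hAt hAx hv hw hw0 hT1 hT2 hT3 hT4 := by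
    have sW : w = ∑ i, padV x i * padV v i := by
      simpa [Fin.sum_univ_castSucc, padV_cast, padV_last] using hw
    have key := Γ.interior (padV x) (padM A) (padV v) w (padT T)
      (by simpa [Fin.sum_univ_castSucc, padV_cast, padV_last] using hx)
      (emb_ne (j := (A, v, w)) hA)
      (fun i k => by
        refine Fin.lastCases ?_ (fun i' => ?_) i
        · simp [padM_last, padM_last']
        · refine Fin.lastCases ?_ (fun k' => ?_) k <;> simp [padM_last, padM_last', padM_cast, hAs])
      (by simpa [Fin.sum_univ_castSucc, padM_cast, padM_last] using hAt)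
      (fun j => by
        refine Fin.lastCases ?_ (fun j' => ?_) j
        · simp [padM_last']
        · simpa [Fin.sum_univ_castSucc, padV_cast, padV_last, padM_cast] using hAx j')
      (by simpa [Fin.sum_univ_castSucc, padV_cast, padV_last] using hv) sW hw0
      (fun i j k => by
        refine Fin.lastCases ?_ (fun i' => ?_) i
        · simp [padT_last]
        · refine Fin.lastCases ?_ (fun j' => ?_) j
          · simp [padT_last', padT_last'']
          · refine Fin.lastCases ?_ (fun k' => ?_) k
            · simp [padT_last', padT_last'']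
            · simp [padT_cast, hT1])
      (fun i j k => by
        refine Fin.lastCases ?_ (fun i' => ?_) i
        · simp [padT_last, padT_last']
        · refine Fin.lastCases ?_ (fun j' => ?_) j
          · simp [padT_last, padT_last']
          · refine Fin.lastCases ?_ (fun k' => ?_) k
            · simp [padT_last'']
            · simp [padT_cast, hT2 i' j' k'])
      (fun j => by
        refine Fin.lastCases ?_ (fun j' => ?_) j
        · simp [padT_last]
        · simpa [Fin.sum_univ_castSucc, padT_cast, padT_last'] using hT3 j')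
      (fun j k => by
        refine Fin.lastCases ?_ (fun j' => ?_) j
        · simp [padM_last, padT_last']
        · refine Fin.lastCases ?_ (fun k' => ?_) k
          · simp [padM_last', padT_last'']
          · simpa [Fin.sum_univ_castSucc, padV_cast, padV_last, padM_cast, padT_cast] using hT4 j' k')
    obtain ⟨j, hj⟩ : ∃ j : Jet d, j = (A, v, w) := ⟨_, rfl⟩
    have hje : ((padM A, padV v, w) : Jet (d + 1)) = emb j := by rw [hj]; rfl
    have hnA : j.1 ≠ 0 := by rw [hj]; exact hA
    have dK : ∀ h, fderiv ℝ (fun j => Γ.K (emb j)) j h = fderiv ℝ Γ.K (emb j) (emb h) := by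
      intro h
      have := (((Γ.smooth_K.differentiableOn (by norm_num)).differentiableAt
        ((isOpen_ne_fun continuous_fst continuous_const).mem_nhds (emb_ne hnA))).hasFDerivAt.comp j
        (emb (d := d)).hasFDerivAt).fderiv
      simpa [Function.comp_def] using congrArg (fun F => F h) this
    have dO : ∀ h q, fderiv ℝ (fun j => (Γ.om (emb j)).comp emb) j h q =
        fderiv ℝ Γ.om (emb j) (emb h) (emb q) := by
      intro h q
      have h1 := ((Γ.smooth_om.differentiableOn (by norm_num)).differentiableAt
        ((isOpen_ne_fun continuous_fst continuous_const).mem_nhds (emb_ne hnA))).hasFDerivAt.comp j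
        (emb (d := d)).hasFDerivAt
      have h2 := h1.clm_comp (hasFDerivAt_const (emb (d := d)) j)
      have := congrArg (fun F => F h q) h2.fderiv
      simpa [Function.comp_def] using this
    rw [Fin.sum_univ_castSucc, Fin.sum_univ_castSucc, djet_pad_last] at key
    simp only [djet_pad, ljet_pad A v w, map_add, map_zero, hje] at key
    have hg := hE x A v w hx hA hAs hAt hAx hv hw hw0
    rw [← hj] at hg
    rw [← hj]
    simp only [dK, dO, ContinuousLinearMap.comp_apply]
    have hcast : ((d + 1 : ℕ) : ℝ) - 2 = (d : ℝ) - 1 := by push_cast; ring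
    rw [hcast] at key
    norm_num at key
    linarith
  boundary x A v z H hx hA hAs hAt hAx hv hxv hAv hzv hzx hH := by
    have key := Γ.boundary (padV x) (padM A) (padV v) (padV z) H
      (by simpa [Fin.sum_univ_castSucc, padV_cast, padV_last] using hx)
      (emb_ne (j := (A, v, 0)) hA)
      (fun i k => by
        refine Fin.lastCases ?_ (fun i' => ?_) i
        · simp [padM_last, padM_last']
        · refine Fin.lastCases ?_ (fun k' => ?_) k <;> simp [padM_last, padM_last', padM_cast, hAs])
      (by simpa [Fin.sum_univ_castSucc, padM_cast, padM_last] using hAt)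
      (fun j => by
        refine Fin.lastCases ?_ (fun j' => ?_) j
        · simp [padM_last']
        · simpa [Fin.sum_univ_castSucc, padV_cast, padV_last, padM_cast] using hAx j')
      (by simpa [Fin.sum_univ_castSucc, padV_cast, padV_last] using hv)
      (by simpa [Fin.sum_univ_castSucc, padV_cast, padV_last] using hxv)
      (fun i => by
        refine Fin.lastCases ?_ (fun i' => ?_) i
        · simp [padM_last, padV_last]
        · simpa [Fin.sum_univ_castSucc, padV_cast, padV_last, padM_cast] using hAv i')
      (by simpa [Fin.sum_univ_castSucc, padV_cast, padV_last] using hzv)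
      (by simpa [Fin.sum_univ_castSucc, padV_cast, padV_last] using hzx) hH
    refine le_of_le_of_eq key ?_
    simp only [ContinuousLinearMap.comp_apply]
    refine congrArg₂ (fun a b => a + b) (congrArg (Γ.om _) ?_) rfl
    refine Prod.ext ?_ (Prod.ext ?_ rfl)
    · funext j k
      refine Fin.lastCases ?_ (fun j' => ?_) j
      · simp [emb_apply, padM_last, padV_last]
      · refine Fin.lastCases ?_ (fun k' => ?_) k <;>
          simp [emb_apply, Fin.sum_univ_castSucc, padM_last, padM_last', padM_cast, padV_last,
            padV_cast]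
    · funext k
      refine Fin.lastCases ?_ (fun k' => ?_) k <;> simp [emb_apply, padV_cast, padV_last]

end Vale.Agent.P098.Exact
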