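import Vale.Agent.P098.Exact.Restrict

/-! The slack inequality of a restriction, reduced to the eigenframe. -/

noncomputable section

namespace Vale.Agent.P098.Exact

open Matrix

variable {n : ℕ}

/-- **Slack from the eigenframe bound.** -/
theorem slack_of_frame (al B : ℝ) (L : List Term)
    (hb : ∀ l v : Fin (n + 1) → ℝ, l (Fin.last n) = 0 → ∑ i, l i = 0 → ∑ i, l i ^ 2 = 1 →
      ∑ i, v i ^ 2 ≤ 1 → 0 ≤ v (Fin.last n) →
      omV al L (jet0 l v) ((fun i m => if i = m then l i else 0, 0, -v (Fin.last n)) : Jet (n + 1))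
        ≤ B)
    (x : Fin (n + 1) → ℝ) (A : Fin (n + 1) → Fin (n + 1) → ℝ) (v : Fin (n + 1) → ℝ) (w : ℝ)
    (hx : ∑ i, x i ^ 2 = 1) (hA : A ≠ 0) (hAs : ∀ i j, A i j = A j i) (hAt : ∑ i, A i i = 0)
    (hAx : ∀ j, ∑ i, x i * A i j = 0) (hv : ∑ i, v i ^ 2 ≤ 1) (hw : w = ∑ i, x i * v i)
    (hw0 : 0 ≤ w) :
    omV al L ((A, v, w) : Jet (n + 1)) ((A, 0, -w) : Jet (n + 1)) ≤
      B * Kf al ((A, v, w) : Jet (n + 1)) := by
  have hxd : x ⬝ᵥ x = 1 := by simpa [dotProduct, sq] using hx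
  have hAxd : (Matrix.of A) *ᵥ x = 0 := by
    funext i
    rw [Pi.zero_apply, ← hAx i]
    show ∑ k, A i k * x k = _
    exact Finset.sum_congr rfl fun k _ => by rw [hAs k i, mul_comm]
  obtain ⟨U, l1, hU, hU', hUx, hl1, hdiag⟩ := exists_frame (Matrix.of A) hAs x hxd hAxd
  obtain ⟨σ, hσdef⟩ : ∃ σ, σ = Real.sqrt (sqA ((A, v, w) : Jet (n + 1))) := ⟨_, rfl⟩
  have hσ : 0 < σ := hσdef ▸ Real.sqrt_pos.2 (sqA_pos (j := (A, v, w)) hA)
  have hσ2 : σ ^ 2 = sqA ((A, v, w) : Jet (n + 1)) := by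
    rw [hσdef, Real.sq_sqrt (sqA_pos (j := (A, v, w)) hA).le]
  obtain ⟨l, hl⟩ : ∃ l : Fin (n + 1) → ℝ, ∀ i, l i = l1 i / σ := ⟨_, fun i => rfl⟩
  obtain ⟨v0, hv0⟩ : ∃ v0 : Fin (n + 1) → ℝ, v0 = Uᵀ *ᵥ v := ⟨_, rfl⟩
  have hUv : U *ᵥ v0 = v := by rw [hv0, Matrix.mulVec_mulVec, hU', Matrix.one_mulVec]
  have hv0last : v0 (Fin.last n) = w := by
    rw [hv0, hw]
    show ∑ i, U i (Fin.last n) * v i = _
    exact Finset.sum_congr rfl fun i _ => by rw [hUx]
  have hAeq : Matrix.of A = U * Matrix.diagonal l1 * Uᵀ := by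
    rw [← hdiag, Matrix.mul_assoc, hU', Matrix.mul_one]
  have hd : ∀ i k, σ * (U * Matrix.of (fun i m => if i = m then l i else 0) * Uᵀ) i k = A i k := by
    intro i k
    have hm : Matrix.of (fun i m => if i = m then l i else 0) = σ⁻¹ • Matrix.diagonal l1 := by
      ext a b
      by_cases h : a = b <;> simp [h, hl, div_eq_inv_mul]
    rw [hm, Matrix.mul_smul, Matrix.smul_mul, ← hAeq, Matrix.smul_apply, smul_eq_mul,
      ← mul_assoc, mul_inv_cancel₀ hσ.ne', one_mul, Matrix.of_apply]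
  have hjet : lam U σ (jet0 l v0) = (A, v, w) :=
    Prod.ext (funext fun i => funext fun k => hd i k) (Prod.ext hUv hv0last)
  have hq : lam U σ ((fun i m => if i = m then l i else 0, 0, -v0 (Fin.last n)) : Jet (n + 1)) = (A, 0, -w) := by
    refine Prod.ext (funext fun i => funext fun k => hd i k) (Prod.ext ?_ ?_)
    · simp [lam]
    · show -v0 (Fin.last n) = -w
      rw [← hv0last]
  have hne0 : (jet0 l v0).1 ≠ 0 := by
    intro h
    apply hA
    have := congrArg Prod.fst hjet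
    simp only at this
    rw [← this]
    funext i k
    have hm : mat (jet0 l v0) = 0 := by ext a b; exact congrFun (congrFun h a) b
    simp [lam, hm]
  have hs1 : sqA (jet0 l v0) = 1 := by
    have h := sqA_smul (lam U 1 (jet0 l v0)) σ
    rw [← lam_eq, hjet, sqA_orth hU, ← hσ2] at h
    exact mul_left_cancel₀ (pow_ne_zero 2 hσ.ne') (h.symm.trans (mul_one (σ ^ 2)).symm)
  have hl3 : l (Fin.last n) = 0 := by
    rw [hl]
    exact (congrArg (· / σ) hl1).trans (zero_div _)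
  have hlq : ∑ i, l i ^ 2 = 1 := by
    rw [← hs1]
    simp [sqA, jet0]
  have hls : ∑ i, l i = 0 := by
    have h : (Uᵀ * Matrix.of A * U).trace = (Matrix.of A).trace := by
      rw [Matrix.trace_mul_comm, ← Matrix.mul_assoc, hU', Matrix.one_mul]
    rw [Matrix.mul_assoc, hdiag, ← Matrix.mul_assoc, hU, Matrix.one_mul, Matrix.trace_diagonal,
      show (Matrix.of A).trace = ∑ i, A i i from rfl, hAt] at h
    simp only [hl, ← Finset.sum_div, h, zero_div]
  have hvq : ∑ i, v0 i ^ 2 ≤ 1 := by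
    rw [show ∑ i, v0 i ^ 2 = v0 ⬝ᵥ v0 by simp [dotProduct, sq], ← dot_mulVec_orth hU, hUv]
    simpa [dotProduct, sq] using hv
  have hb' := hb l v0 hl3 hls hlq hvq (hv0last ▸ hw0)
  have hc : 0 < σ ^ (2 * al) := Real.rpow_pos_of_pos hσ _
  rw [← hq, ← hjet, omV_lam hU al L hσ hne0, Kf_lam hU al hσ hne0, Kf, hs1, Real.one_rpow]
  have hmul := mul_le_mul_of_nonneg_left hb' hc.le
  linarith

end Vale.Agent.P098.Exact
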